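import Vale.Agent.P048.Layer

/-! # Building the ordered layering of a connected graph -/

namespace Vale.Agent.P048

open Finset

variable {V : Type*} [Fintype V]

/-- A colouring of `S` with colours below `q`. -/
def ColB (G : SimpleGraph V) (S : Finset V) (q : ℕ) (g : V → ℕ) : Prop :=
  (∀ x ∈ S, g x < q) ∧ ∀ x ∈ S, ∀ y ∈ S, G.Adj x y → g x ≠ g y

omit [Fintype V] in
theorem dense_of_not_col (G : SimpleGraph V) (q : ℕ) :
    ∀ S : Finset V, (¬∃ g, ColB G S q g) → ∃ C : Finset V, C.Nonempty ∧ C ⊆ S ∧
      ∀ z ∈ C, ∃ W : Finset V, W ⊆ C ∧ q ≤ W.card ∧ ∀ w ∈ W, G.Adj z w := by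
  classical
  intro S
  induction S using Finset.strongInduction with
  | H S ih =>
    intro h
    rcases S.eq_empty_or_nonempty with rfl | hS
    · exact absurd ⟨fun _ => 0, by simp [ColB]⟩ h
    by_cases hz : ∃ z ∈ S, (S.filter (G.Adj z)).card < q
    · obtain ⟨z, hz, hc⟩ := hz
      by_cases h' : ∃ g, ColB G (S.erase z) q g
      · obtain ⟨g, hg1, hg2⟩ := h'
        obtain ⟨c, hcq, hcN⟩ := Finset.exists_mem_notMem_of_card_lt_card
          (show ((S.filter (G.Adj z)).image g).card < (Finset.range q).card by
            rw [Finset.card_range]; exact lt_of_le_of_lt Finset.card_image_le hc)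
        refine absurd ⟨Function.update g z c, fun x hx => ?_, fun x hx y hy hxy => ?_⟩ h
        · rcases eq_or_ne x z with rfl | hne
          · simpa using hcq
          · simpa [hne] using hg1 x (Finset.mem_erase.2 ⟨hne, hx⟩)
        · rcases eq_or_ne x z with rfl | hne
          · rw [Function.update_self, Function.update_of_ne hxy.ne.symm]
            exact fun e => hcN (Finset.mem_image.2 ⟨y, Finset.mem_filter.2 ⟨hy, hxy⟩, e.symm⟩)
          · rcases eq_or_ne y z with rfl | hne'
            · rw [Function.update_self, Function.update_of_ne hne]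
              exact fun e => hcN (Finset.mem_image.2 ⟨x, Finset.mem_filter.2 ⟨hx, hxy.symm⟩, e⟩)
            · rw [Function.update_of_ne hne, Function.update_of_ne hne']
              exact hg2 x (Finset.mem_erase.2 ⟨hne, hx⟩) y (Finset.mem_erase.2 ⟨hne', hy⟩) hxy
      · obtain ⟨C, h1, h2, h3⟩ := ih _ (Finset.erase_ssubset hz) h'
        exact ⟨C, h1, h2.trans (Finset.erase_subset z S), h3⟩
    · push Not at hz
      exact ⟨S, hS, subset_rfl, fun z hz' => ⟨S.filter (G.Adj z), Finset.filter_subset _ _,
        hz z hz', fun w hw => (Finset.mem_filter.1 hw).2⟩⟩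

variable (G : SimpleGraph V)

theorem exists_col (S : Finset V) :
    ∃ q, ∃ g, ColB G S q g :=
  ⟨Fintype.card V, fun x => (Fintype.equivFin V x : ℕ), fun x _ => (Fintype.equivFin V x).isLt,
    fun x _ y _ h e => h.ne ((Fintype.equivFin V).injective (Fin.ext e))⟩

open Classical in
/-- An optimal colour, used to order children of one parent. -/
noncomputable def colour (S : Finset V) (x : V) : ℕ :=
  if x ∈ S then Classical.choose (Nat.find_spec (exists_col G S)) x else 0

open Classical in
theorem colour_lt (S : Finset V) (x : V) : colour G S x < Fintype.card V + 1 := by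
  unfold colour
  split
  · have h1 := (Classical.choose_spec (Nat.find_spec (exists_col G S))).1 x ‹_›
    have h2 := Nat.find_min' (exists_col G S) (m := Fintype.card V)
      ⟨fun x => (Fintype.equivFin V x : ℕ), fun x _ => (Fintype.equivFin V x).isLt,
        fun x _ y _ h e => h.ne ((Fintype.equivFin V).injective (Fin.ext e))⟩
    omega
  · omega

open Classical in
theorem colour_spec {S : Finset V} :
    ∃ q, (∀ x ∈ S, colour G S x < q) ∧ (∀ x ∈ S, ∀ y ∈ S, G.Adj x y → colour G S x ≠ colour G S y) ∧
      ∀ q' < q, ¬∃ g, ColB G S q' g := by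
  refine ⟨Nat.find (exists_col G S), fun x hx => ?_, fun x hx y hy h => ?_,
    fun q' h => Nat.find_min (exists_col G S) h⟩
  · rw [colour, if_pos hx]
    exact (Classical.choose_spec (Nat.find_spec (exists_col G S))).1 x hx
  · rw [colour, if_pos hx, colour, if_pos hy]
    exact (Classical.choose_spec (Nat.find_spec (exists_col G S))).2 x hx y hy h

variable (root : V)

open Classical in
/-- The least key of a neighbour in layer `i`. -/
noncomputable def minKey (g : V → ℕ) (i : ℕ) (x : V) : ℕ :=
  sInf {v | ∃ y, G.Adj y x ∧ G.dist root y = i ∧ g y = v}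

open Classical in
/-- The vertices of layer `i + 1` with least neighbour key `v`. -/
noncomputable def group (g : V → ℕ) (i v : ℕ) : Finset V :=
  Finset.univ.filter fun z => G.dist root z = i + 1 ∧ minKey G root g i z = v

/-- The key of a vertex seen in layer `i`. -/
noncomputable def key : ℕ → V → ℕ
  | 0, _ => 0
  | i + 1, x =>
    (minKey G root (key i) i x * (Fintype.card V + 1) +
      colour G (group G root (key i) i (minKey G root (key i) i x)) x) * Fintype.card V +
      (Fintype.equivFin V x : ℕ)

theorem key_inj (i : ℕ) {x y : V} (h : key G root (i + 1) x = key G root (i + 1) y) : x = y := by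
  have := congrArg (· % Fintype.card V) h
  simp only [key, Nat.mul_add_mod_self_right, Nat.mod_eq_of_lt (Fintype.equivFin V x).isLt,
    Nat.mod_eq_of_lt (Fintype.equivFin V y).isLt] at this
  exact (Fintype.equivFin V).injective (Fin.ext this)

theorem lex_le {a a' c c' e e' M : ℕ} (hc' : c' < M + 1) (he' : e' < M)
    (h : (a * (M + 1) + c) * M + e < (a' * (M + 1) + c') * M + e') :
    a ≤ a' ∧ (a = a' → c ≤ c') := by
  constructor
  · by_contra hh
    have h2 : a' * (M + 1) + c' + 1 ≤ a * (M + 1) + c := by nlinarith
    nlinarith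
  · rintro rfl
    by_contra hh
    have h2 : a * (M + 1) + c' + 1 ≤ a * (M + 1) + c := by omega
    nlinarith

/-- Every connected graph has an ordered layering from any root. -/
theorem exists_lay (hG : G.Connected) :
    ∃ T : Lay G, T.root = root ∧ T.d = G.dist root := by
  classical
  have pred : ∀ x, 0 < G.dist root x → ∃ y, G.Adj y x ∧ G.dist root y + 1 = G.dist root x := by
    intro x hx
    obtain ⟨w, hw⟩ := hG.exists_walk_length_eq_dist x root
    rw [SimpleGraph.dist_comm] at hx
    cases w with
    | nil => simp at hx
    | cons h p =>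
      rename_i y
      refine ⟨y, h.symm, ?_⟩
      have h1 := SimpleGraph.dist_le p
      rw [SimpleGraph.Walk.length_cons] at hw
      have h2 := hG.dist_triangle (u := x) (v := y) (w := root)
      rw [SimpleGraph.dist_eq_one_iff_adj.2 h] at h2
      rw [SimpleGraph.dist_comm (u := root) (v := y), SimpleGraph.dist_comm (u := root) (v := x)]
      omega
  let d := G.dist root
  let K : V → ℕ := fun x => key G root (d x) x
  have best : ∀ x, ∃ y, 0 < d x → G.Adj y x ∧ d y + 1 = d x ∧
      K y = minKey G root (key G root (d x - 1)) (d x - 1) x := by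
    intro x
    by_cases hx : 0 < d x
    · have hne : {v | ∃ y, G.Adj y x ∧ d y = d x - 1 ∧ key G root (d x - 1) y = v}.Nonempty := by
        obtain ⟨y, h1, h2⟩ := pred x hx
        exact ⟨_, y, h1, by simp only [d] at *; omega, rfl⟩
      obtain ⟨y, h1, h2, h3⟩ := Nat.sInf_mem hne
      refine ⟨y, fun _ => ⟨h1, by omega, ?_⟩⟩
      simp only [K, h2]
      exact h3
    · exact ⟨x, fun h => absurd h hx⟩
  choose par hpar using best
  have zero : ∀ x, d x = 0 → x = root := fun x hx => (hG.dist_eq_zero_iff.1 hx).symm
  have inj : ∀ x y, d x = d y → K x = K y → x = y := by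
    intro x y h e
    simp only [K, ← h] at e
    cases hd : d x with
    | zero => rw [zero x hd, zero y (h ▸ hd)]
    | succ i =>
      rw [hd] at e
      exact key_inj G root i e
  refine ⟨{ d := d, K := K, par := par, root := root, d_root := SimpleGraph.dist_self,
            d_zero := zero, adj_d := ?_, par_adj := fun x hx => (hpar x hx).1,
            par_d := fun x hx => (hpar x hx).2.1, inj := inj, mono := ?_, least := ?_,
            sib := ?_ }, rfl, rfl⟩
  · intro x y h
    have h2 := hG.dist_triangle (u := root) (v := y) (w := x)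
    rw [SimpleGraph.dist_eq_one_iff_adj.2 h.symm] at h2
    exact h2
  · intro x y h hx hK
    obtain ⟨i, hi⟩ : ∃ i, d x = i + 1 := ⟨d x - 1, by omega⟩
    have hy : d y = i + 1 := by omega
    rw [(hpar x hx).2.2, (hpar y (by omega)).2.2]
    simp only [K, hi, hy, key] at hK
    simp only [hi, hy, Nat.add_sub_cancel]
    exact (lex_le (colour_lt G _ _) (Fintype.equivFin V y).isLt hK).1
  · intro x y h hd
    rw [(hpar x (by omega)).2.2]
    refine Nat.sInf_le ⟨y, h.symm, show d y = d x - 1 by omega, ?_⟩
    simp only [K, show d x - 1 = d y by omega]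
  · intro p r y hr hy hstep
    have grp : ∀ l, 1 ≤ l → l ≤ r →
        y l ∈ group G root (key G root (d p)) (d p) (K p) := by
      intro l h1 h2
      have e := hy l h1 h2
      simp only [group, Finset.mem_filter, Finset.mem_univ, true_and]
      refine ⟨e.1, ?_⟩
      have := (hpar (y l) (by omega)).2.2
      rw [e.2, e.1, Nat.add_sub_cancel] at this
      exact this.symm
    generalize hS : group G root (key G root (d p)) (d p) (K p) = S at grp
    obtain ⟨q, hq1, hq2, hq3⟩ := colour_spec G (S := S)
    have desc : ∀ l, 1 ≤ l → l < r → colour G S (y (l + 1)) < colour G S (y l) := by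
      intro l h1 h2
      obtain ⟨ha, hk⟩ := hstep l h1 h2
      have m1 : ∀ t, 1 ≤ t → t ≤ r → minKey G root (key G root (d p)) (d p) (y t) = K p := by
        intro t t1 t2
        have := grp t t1 t2
        rw [← hS] at this
        simp only [group, Finset.mem_filter] at this
        exact this.2.2
      simp only [K, (hy l h1 h2.le).1, (hy (l + 1) (by omega) h2).1, key,
        m1 l h1 h2.le, m1 (l + 1) (by omega) h2, hS] at hk
      refine lt_of_le_of_ne
        ((lex_le (colour_lt G _ _) (Fintype.equivFin V (y l)).isLt hk).2 rfl) ?_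
      exact (hq2 _ (grp l h1 h2.le) _ (grp (l + 1) (by omega) h2) ha).symm
    have hqr : r ≤ q := by
      have : ∀ l, 1 ≤ l → l ≤ r → colour G S (y l) + l + 1 ≤ colour G S (y 1) + 2 := by
        intro l h1
        induction l, h1 using Nat.le_induction with
        | base => intro _; omega
        | succ l h1 ih =>
          intro h2
          have := desc l h1 h2
          have := ih (by omega)
          omega
      have := this r hr le_rfl
      have := hq1 (y 1) (grp 1 le_rfl hr)
      omega
    obtain ⟨C, hC1, hC2, hC3⟩ := dense_of_not_col G (r - 1) S (hq3 _ (by omega))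
    refine ⟨C, hC1, fun z hz => ?_, fun z hz => ?_⟩
    · have := hC2 hz
      rw [← hS] at this
      simp only [group, Finset.mem_filter] at this
      obtain ⟨-, hzd, hzk⟩ := this
      refine ⟨hzd, ?_⟩
      have hz0 : 0 < d z := by simp only [d] at *; omega
      refine inj _ _ ?_ ?_
      · have := (hpar z hz0).2.1
        simp only [d] at *
        omega
      · rw [(hpar z hz0).2.2, show d z - 1 = d p by simp only [d] at *; omega, hzk]
    · obtain ⟨W, w1, w2, w3⟩ := hC3 z hz
      exact ⟨W, w1, by omega, w3⟩

end Vale.Agent.P048
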