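import Vale.Agent.P048.Paths

/-! # Layerings with an ordered spanning tree -/

namespace Vale.Agent.P048

open Finset

variable {V : Type*}

/-- A breadth-first layering with an ordered tree: each parent is the least neighbour one layer
up, and children of one parent are ordered along a colouring. -/
structure Lay (G : SimpleGraph V) where
  d : V → ℕ
  K : V → ℕ
  par : V → V
  root : V
  d_root : d root = 0
  d_zero : ∀ x, d x = 0 → x = root
  adj_d : ∀ x y, G.Adj x y → d x ≤ d y + 1
  par_adj : ∀ x, 0 < d x → G.Adj (par x) x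
  par_d : ∀ x, 0 < d x → d (par x) + 1 = d x
  inj : ∀ x y, d x = d y → K x = K y → x = y
  mono : ∀ x y, d x = d y → 0 < d x → K x < K y → K (par x) ≤ K (par y)
  least : ∀ x y, G.Adj x y → d y + 1 = d x → K (par x) ≤ K y
  sib : ∀ (p : V) (r : ℕ) (y : ℕ → V), 1 ≤ r →
    (∀ l, 1 ≤ l → l ≤ r → d (y l) = d p + 1 ∧ par (y l) = p) →
    (∀ l, 1 ≤ l → l < r → G.Adj (y l) (y (l + 1)) ∧ K (y (l + 1)) < K (y l)) →
    ∃ C : Finset V, C.Nonempty ∧ (∀ z ∈ C, d z = d p + 1 ∧ par z = p) ∧
      ∀ z ∈ C, ∃ W : Finset V, W ⊆ C ∧ r ≤ W.card + 1 ∧ ∀ w ∈ W, G.Adj z w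

variable {G : SimpleGraph V} (T : Lay G)

/-- The ancestor `s` steps up. -/
def Lay.anc (s : ℕ) (x : V) : V := T.par^[s] x

/-- The number of steps to the lowest common ancestor. -/
noncomputable def Lay.dl (x y : V) : ℕ := sInf {s | T.anc s x = T.anc s y}

theorem Lay.anc_succ (s : ℕ) (x : V) : T.anc (s + 1) x = T.anc s (T.par x) :=
  Function.iterate_succ_apply T.par s x

theorem Lay.anc_succ' (s : ℕ) (x : V) : T.anc (s + 1) x = T.par (T.anc s x) :=
  Function.iterate_succ_apply' T.par s x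

theorem Lay.d_anc {i : ℕ} {x : V} (hx : T.d x = i) : ∀ {s : ℕ}, s ≤ i → T.d (T.anc s x) + s = i
  | 0, _ => by simpa [Lay.anc] using hx
  | s + 1, hs => by
    have ih := Lay.d_anc hx (s := s) (by omega)
    have := T.par_d (T.anc s x) (by omega)
    rw [T.anc_succ']
    omega

theorem Lay.anc_top {i : ℕ} {x : V} (hx : T.d x = i) : T.anc i x = T.root := by
  refine T.d_zero _ ?_
  have := T.d_anc hx (le_refl i)
  omega

variable {i : ℕ} {x y z : V}

theorem Lay.dl_mem (hx : T.d x = i) (hy : T.d y = i) :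
    T.anc (T.dl x y) x = T.anc (T.dl x y) y :=
  Nat.sInf_mem (s := {s | T.anc s x = T.anc s y}) ⟨i, by simp [T.anc_top hx, T.anc_top hy]⟩

theorem Lay.dl_le (hx : T.d x = i) (hy : T.d y = i) : T.dl x y ≤ i :=
  Nat.sInf_le (by simp [T.anc_top hx, T.anc_top hy])

theorem Lay.dl_le_of_eq {s : ℕ} (h : T.anc s x = T.anc s y) : T.dl x y ≤ s := Nat.sInf_le h

theorem Lay.dl_comm (x y : V) : T.dl x y = T.dl y x := by
  unfold Lay.dl
  congr 1
  ext s
  exact eq_comm

theorem Lay.anc_eq {s : ℕ} (hx : T.d x = i) (hy : T.d y = i) (hs : T.dl x y ≤ s) :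
    T.anc s x = T.anc s y := by
  induction s, hs using Nat.le_induction with
  | base => exact T.dl_mem hx hy
  | succ s _ ih => rw [T.anc_succ', T.anc_succ', ih]

theorem Lay.one_le_dl (hx : T.d x = i) (hy : T.d y = i) (hne : x ≠ y) : 1 ≤ T.dl x y := by
  rcases Nat.eq_zero_or_pos (T.dl x y) with h | h
  · exact absurd (by simpa [Lay.anc, h] using T.dl_mem hx hy) hne
  · exact h

theorem Lay.dl_max (hx : T.d x = i) (hy : T.d y = i) (hz : T.d z = i) :
    T.dl x z ≤ max (T.dl x y) (T.dl y z) :=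
  T.dl_le_of_eq <| (T.anc_eq hx hy (le_max_left _ _)).trans (T.anc_eq hy hz (le_max_right _ _))

theorem Lay.anc_mono (hx : T.d x = i) (hy : T.d y = i) (h : T.K x ≤ T.K y) :
    ∀ {s : ℕ}, s ≤ i → T.K (T.anc s x) ≤ T.K (T.anc s y)
  | 0, _ => h
  | s + 1, hs => by
    have ih := Lay.anc_mono hx hy h (s := s) (by omega)
    have e1 := T.d_anc hx (s := s) (by omega)
    have e2 := T.d_anc hy (s := s) (by omega)
    rw [T.anc_succ', T.anc_succ']
    rcases lt_or_eq_of_le ih with h' | h'
    · exact T.mono _ _ (by omega) (by omega) h'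
    · rw [T.inj _ _ (by omega) h']

theorem Lay.dl_left (hx : T.d x = i) (hy : T.d y = i) (hz : T.d z = i) (h1 : T.K x ≤ T.K y)
    (h2 : T.K y ≤ T.K z) : T.dl x y ≤ T.dl x z := by
  have hs := T.dl_le hx hz
  have e := T.dl_mem hx hz
  refine T.dl_le_of_eq (T.inj _ _ ?_ ?_)
  · have := T.d_anc hx hs
    have := T.d_anc hy hs
    omega
  · have a := T.anc_mono hx hy h1 hs
    have b := T.anc_mono hy hz h2 hs
    rw [← e] at b
    omega

theorem Lay.dl_right (hx : T.d x = i) (hy : T.d y = i) (hz : T.d z = i) (h1 : T.K x ≤ T.K y)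
    (h2 : T.K y ≤ T.K z) : T.dl y z ≤ T.dl x z := by
  have a := T.dl_max hy hx hz
  have b := T.dl_left hx hy hz h1 h2
  have := T.dl_comm x y
  omega

theorem Lay.dl_par {j : ℕ} (hx : T.d x = j + 1) (hy : T.d y = j + 1) (hne : x ≠ y) :
    T.dl x y = T.dl (T.par x) (T.par y) + 1 := by
  have h1 := T.par_d x (by omega)
  have h2 := T.par_d y (by omega)
  apply le_antisymm
  · refine T.dl_le_of_eq ?_
    rw [T.anc_succ, T.anc_succ]
    exact T.dl_mem (i := j) (by omega) (by omega)
  · obtain ⟨s, hs⟩ := Nat.exists_eq_add_of_le (T.one_le_dl hx hy hne)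
    have e := T.dl_mem hx hy
    rw [hs, add_comm 1 s, T.anc_succ, T.anc_succ] at e
    have := T.dl_le_of_eq e
    omega

theorem Lay.route : ∀ (D : ℕ) {i : ℕ} {x y : V}, T.d x = i → T.d y = i → T.dl x y = D + 1 →
    Pth G (T.par x) (T.par y) (2 * D + 1) {w | T.d w < i}
  | 0, i, x, y, hx, hy, hD => by
    have e := T.dl_mem hx hy
    have hi := T.dl_le hx hy
    rw [hD] at e
    simp only [zero_add, Lay.anc, Function.iterate_one] at e
    have := T.par_d x (by omega)
    rw [← e]
    refine (Pth.single (T.par x)).mono ?_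
    simp only [Set.singleton_subset_iff, Set.mem_ofPred_eq]
    omega
  | D + 1, i, x, y, hx, hy, hD => by
    have hi := T.dl_le hx hy
    obtain ⟨j, rfl⟩ := Nat.exists_eq_add_of_le (show 1 ≤ i by omega)
    have h1 := T.par_d x (by omega)
    have h2 := T.par_d y (by omega)
    have hne : x ≠ y := by
      rintro rfl
      have := T.dl_le_of_eq (s := 0) (rfl : T.anc 0 x = T.anc 0 x)
      omega
    have e := T.dl_par (j := j) (by omega) (by omega) hne
    have ih := Lay.route D (i := j) (x := T.par x) (y := T.par y) (by omega) (by omega) (by omega)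
    have hne' : T.par x ≠ T.par y := by
      intro h
      have := T.dl_le_of_eq (s := 0) (show T.anc 0 (T.par x) = T.anc 0 (T.par y) from h)
      omega
    have a := (Pth.single (T.par x)).append (T.par_adj (T.par x) (by omega)).symm ih (by
      simp only [Set.disjoint_singleton_left, Set.mem_ofPred_eq]; omega)
    have b := a.snoc (T.par_adj (T.par y) (by omega)) (by
      simp only [Set.mem_union, Set.mem_singleton_iff, Set.mem_ofPred_eq, not_or]
      exact ⟨hne'.symm, by omega⟩)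
    rw [show 2 * (D + 1) + 1 = 1 + (2 * D + 1) + 1 by omega]
    refine b.mono ?_
    rintro w ((rfl | hw) | rfl) <;> simp only [Set.mem_ofPred_eq] at * <;> omega

/-- Closing a path above layer `i` through the tree. -/
theorem Lay.close {i n : ℕ} {x y : V} {S : Set V} (P : Pth G x y n S) (hS : ∀ w ∈ S, i ≤ T.d w)
    (hx : T.d x = i) (hy : T.d y = i) (hne : x ≠ y) (hn : 2 ≤ n) :
    HasCyc G (n + 2 * T.dl x y - 1) := by
  have h1 := T.one_le_dl hx hy hne
  have hi := T.dl_le hx hy
  obtain ⟨D, hD⟩ := Nat.exists_eq_add_of_le h1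
  have R := T.route D (x := y) (y := x) hy hx (by rw [T.dl_comm]; omega)
  have C := P.append (T.par_adj y (by omega)).symm R (Set.disjoint_left.2 fun w a b => by
    have := hS w a
    simp only [Set.mem_ofPred_eq] at b
    omega)
  rw [show n + 2 * T.dl x y - 1 = n + (2 * D + 1) by omega]
  exact C.cycle (T.par_adj x (by omega)) (by omega)

/-- The top boundary of an ascending sequence. -/
theorem Lay.split {i k : ℕ} (f : ℕ → V) (hk : 2 ≤ k) (hd : ∀ a, 1 ≤ a → a ≤ k → T.d (f a) = i)
    (hK : ∀ a b, 1 ≤ a → a < b → b ≤ k → T.K (f a) < T.K (f b)) :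
    ∃ t, 1 ≤ t ∧ t < k ∧ ∀ a b, 1 ≤ a → a ≤ t → t < b → b ≤ k →
      T.dl (f a) (f b) = T.dl (f 1) (f k) := by
  classical
  have hle : ∀ a b, 1 ≤ a → a ≤ b → b ≤ k → T.K (f a) ≤ T.K (f b) := fun a b h1 h2 h3 => by
    rcases lt_or_eq_of_le h2 with h | h
    · exact (hK a b h1 h h3).le
    · rw [h]
  have hne : f 1 ≠ f k := fun h => by
    have := hK 1 k le_rfl (by omega) le_rfl
    rw [h] at this
    omega
  have hD1 := T.one_le_dl (hd 1 le_rfl (by omega)) (hd k (by omega) le_rfl) hne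
  let D := T.dl (f 1) (f k)
  have hex : ∃ q, 2 ≤ q ∧ T.dl (f 1) (f q) = D := ⟨k, hk, rfl⟩
  let q := Nat.find hex
  have hq : 2 ≤ q ∧ T.dl (f 1) (f q) = D := Nat.find_spec hex
  have hqk : q ≤ k := Nat.find_min' hex ⟨hk, rfl⟩
  have d := fun a h h' => hd a h h'
  refine ⟨q - 1, by omega, by omega, fun a b ha hat htb hb => le_antisymm ?_ ?_⟩
  · have := T.dl_left (d a ha (by omega)) (d b (by omega) hb) (d k (by omega) le_rfl)
      (hle a b ha (by omega) hb) (hle b k (by omega) hb le_rfl)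
    have := T.dl_right (d 1 le_rfl (by omega)) (d a ha (by omega)) (d k (by omega) le_rfl)
      (hle 1 a le_rfl ha (by omega)) (hle a k ha (by omega) le_rfl)
    omega
  · have small : T.dl (f 1) (f a) < D := by
      rcases Nat.lt_or_ge a 2 with h | h
      · obtain rfl : a = 1 := by omega
        have := T.dl_le_of_eq (s := 0) (rfl : T.anc 0 (f 1) = T.anc 0 (f 1))
        omega
      · have := T.dl_left (d 1 le_rfl (by omega)) (d a ha (by omega)) (d k (by omega) le_rfl)
          (hle 1 a le_rfl ha (by omega)) (hle a k ha (by omega) le_rfl)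
        have := Nat.find_min hex (show a < q by omega)
        simp only [h, true_and] at this
        omega
    have := T.dl_max (d 1 le_rfl (by omega)) (d a ha (by omega)) (d b (by omega) hb)
    have := T.dl_left (d 1 le_rfl (by omega)) (d q (by omega) hqk) (d b (by omega) hb)
      (hle 1 q le_rfl (by omega) hqk) (hle q b (by omega) (by omega) hb)
    omega

/-- An ascending path inside one layer gives a cycle of every admissible length. -/
theorem Lay.pure_cycle {i k m : ℕ} (f : ℕ → V) (hd : ∀ a, 1 ≤ a → a ≤ k → T.d (f a) = i)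
    (hK : ∀ a b, 1 ≤ a → a < b → b ≤ k → T.K (f a) < T.K (f b))
    (hadj : ∀ a, 1 ≤ a → a < k → G.Adj (f a) (f (a + 1))) (hk : 2 ≤ k)
    (hlo : 2 * T.dl (f 1) (f k) + 1 ≤ m) (hhi : m + 1 ≤ k + 2 * T.dl (f 1) (f k)) :
    HasCyc G m := by
  obtain ⟨t, ht1, htk, ht⟩ := T.split f hk hd hK
  generalize hD : T.dl (f 1) (f k) = D at *
  obtain ⟨a, b, ha, hat, htb, hb, hg⟩ : ∃ a b, 1 ≤ a ∧ a ≤ t ∧ t < b ∧ b ≤ k ∧ b = a + (m - 2 * D) := by
    by_cases h : m - 2 * D ≤ t
    · exact ⟨t + 1 - (m - 2 * D), t + 1, by omega, by omega, by omega, by omega, by omega⟩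
    · exact ⟨1, 1 + (m - 2 * D), le_rfl, ht1, by omega, by omega, rfl⟩
  have inj : ∀ p q, a ≤ p → p < q → q ≤ b → f p ≠ f q := fun p q h1 h2 h3 h => by
    have := hK p q (by omega) h2 (by omega)
    rw [h] at this
    omega
  have C := T.close (i := i) (Pth.seg f (by omega) inj fun p h1 h2 => hadj p (by omega) (by omega))
    (by rintro w ⟨p, ⟨h1, h2⟩, rfl⟩; exact (hd p (by omega) (by omega)).ge)
    (hd a ha (by omega)) (hd b (by omega) hb) (inj a b le_rfl (by omega) le_rfl) (by omega)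
  rw [ht a b ha hat htb hb] at C
  rwa [show b - a + 1 + 2 * D - 1 = m by omega] at C

end Vale.Agent.P048
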