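import Vale.Agent.P048.Build
import Vale.Agent.P048.Extend

/-! # Graphs without a cycle on `m` vertices and independence number below `(m + 1) / 2` -/

namespace Vale.Agent.P048

open Finset

variable {V : Type}

/-- No two members of `S` are adjacent. -/
def Indep (G : SimpleGraph V) (S : Finset V) : Prop := ∀ a ∈ S, ∀ b ∈ S, ¬G.Adj a b

theorem Indep.union [DecidableEq V] {G : SimpleGraph V} {S S' : Finset V} (h : Indep G S)
    (h' : Indep G S') (hx : ∀ a ∈ S, ∀ b ∈ S', ¬G.Adj a b) : Indep G (S ∪ S') := by
  intro a ha b hb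
  rcases Finset.mem_union.1 ha with ha | ha <;> rcases Finset.mem_union.1 hb with hb | hb
  · exact h a ha b hb
  · exact hx a ha b hb
  · exact fun e => hx b hb a ha e.symm
  · exact h' a ha b hb

variable [Fintype V] {G : SimpleGraph V}

open Classical in
/-- The independence number inside `W`. -/
noncomputable def alpha (G : SimpleGraph V) (W : Finset V) : ℕ :=
  (W.powerset.filter (Indep G)).sup Finset.card

omit [Fintype V] in
theorem le_alpha {W S : Finset V} (h : S ⊆ W) (hS : Indep G S) : S.card ≤ alpha G W := by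
  classical
  exact Finset.le_sup (f := Finset.card) (Finset.mem_filter.2 ⟨Finset.mem_powerset.2 h, hS⟩)

omit [Fintype V] in
theorem exists_alpha (W : Finset V) : ∃ S, S ⊆ W ∧ Indep G S ∧ S.card = alpha G W := by
  classical
  have hne : (W.powerset.filter (Indep G)).Nonempty :=
    ⟨∅, Finset.mem_filter.2 ⟨Finset.empty_mem_powerset W, by simp [Indep]⟩⟩
  obtain ⟨S, hS, h⟩ := Finset.exists_mem_eq_sup _ hne Finset.card
  rw [Finset.mem_filter, Finset.mem_powerset] at hS
  exact ⟨S, hS.1, hS.2, h.symm⟩

/-- A hypothetical smallest counterexample. -/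
structure Bad (G : SimpleGraph V) (m A : ℕ) : Prop where
  hm : 3 ≤ m
  hAm : 2 * A + 1 ≤ m
  free : ¬HasCyc G m
  hA : ∀ S : Finset V, Indep G S → S.card ≤ A
  small : ∀ U : Finset V, alpha G U < A → U.card ≤ (m - 1) * alpha G U
  big : (m - 1) * A < Fintype.card V

variable {m A : ℕ}

theorem Bad.alpha_le (h : Bad G m A) (W : Finset V) : alpha G W ≤ A := by
  obtain ⟨S, -, h2, h3⟩ := exists_alpha (G := G) W
  exact h3 ▸ h.hA S h2

theorem Bad.alpha_add (h : Bad G m A) {X Y : Finset V} (hXY : ∀ a ∈ X, ∀ b ∈ Y, ¬G.Adj a b)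
    (hd : Disjoint X Y) : alpha G X + alpha G Y ≤ A := by
  classical
  obtain ⟨S, s1, s2, s3⟩ := exists_alpha (G := G) X
  obtain ⟨S', t1, t2, t3⟩ := exists_alpha (G := G) Y
  have := h.hA _ (s2.union t2 fun a ha b hb => hXY a (s1 ha) b (t1 hb))
  rw [Finset.card_union_of_disjoint (hd.mono s1 t1)] at this
  omega

omit [Fintype V] in
theorem alpha_pos {X : Finset V} {x : V} (hx : x ∈ X) : 1 ≤ alpha G X := by
  have := le_alpha (G := G) (S := {x}) (Finset.singleton_subset_iff.2 hx) (by
    intro a ha b hb
    rw [Finset.mem_singleton] at ha hb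
    subst ha hb
    exact G.irrefl)
  simpa using this

theorem Bad.nonempty (h : Bad G m A) : Nonempty V :=
  Fintype.card_pos_iff.1 (lt_of_le_of_lt (Nat.zero_le _) h.big)

theorem Bad.connected (h : Bad G m A) : G.Connected := by
  classical
  have := h.nonempty
  refine ⟨fun u v => ?_⟩
  by_contra huv
  let X := Finset.univ.filter fun w => G.Reachable u w
  let Y := Finset.univ.filter fun w => ¬G.Reachable u w
  have hx := alpha_pos (G := G) (show u ∈ X by simp [X])
  have hy := alpha_pos (G := G) (show v ∈ Y by simpa [Y] using huv)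
  have hs := h.alpha_add (X := X) (Y := Y) (fun a ha b hb e => by
    simp only [X, Y, Finset.mem_filter, Finset.mem_univ, true_and] at ha hb
    exact hb (ha.trans e.reachable)) (Finset.disjoint_filter.2 fun w _ a b => b a)
  have c1 := h.small X (by omega)
  have c2 := h.small Y (by omega)
  have c3 : X.card + Y.card = Fintype.card V :=
    Finset.card_filter_add_card_filter_not (s := Finset.univ) (fun w => G.Reachable u w)
  have := h.big
  nlinarith [Nat.mul_le_mul_left (m - 1) hs]

theorem Bad.cut (h : Bad G m A) (p : V) (X : Set V) (hX : X.Nonempty) (hp : p ∉ X)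
    (hw : ∃ w, w ≠ p ∧ w ∉ X) : ∃ a ∈ X, ∃ b, b ∉ X ∧ b ≠ p ∧ G.Adj a b := by
  classical
  by_contra hno
  push Not at hno
  let P := Finset.univ.filter fun z => z ∈ X
  let Q := Finset.univ.filter fun z => z ∉ X ∧ z ≠ p
  obtain ⟨x, hx⟩ := hX
  obtain ⟨w, hwp, hwX⟩ := hw
  have hpx := alpha_pos (G := G) (show x ∈ P by simp [P, hx])
  have hqw := alpha_pos (G := G) (show w ∈ Q by simp [Q, hwp, hwX])
  have hpq : ∀ a ∈ P, ∀ b ∈ Q, ¬G.Adj a b := fun a ha b hb => by
    simp only [P, Q, Finset.mem_filter, Finset.mem_univ, true_and] at ha hb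
    exact fun e => hb.2 (hno a ha b hb.1 hb.2 e).elim
  have hd : Disjoint P Q := Finset.disjoint_filter.2 fun z _ a b => b.1 a
  have hsum := h.alpha_add hpq hd
  have cP := h.small P (by omega)
  have cQ := h.small Q (by omega)
  have hpP : p ∉ P := by simp [P, hp]
  have hpQ : p ∉ Q := by simp [Q]
  have huniv : Finset.univ = insert p (P ∪ Q) := by
    ext z
    simp only [P, Q, Finset.mem_univ, Finset.mem_insert, Finset.mem_union, Finset.mem_filter,
      true_and, true_iff]
    tauto
  have hcard : Fintype.card V = P.card + Q.card + 1 := by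
    rw [← Finset.card_univ, huniv, Finset.card_insert_of_notMem (by simp [hpP, hpQ]),
      Finset.card_union_of_disjoint hd]
  have hbig := h.big
  have hm := h.hm
  have hmul := Nat.mul_le_mul_left (m - 1) hsum
  rw [Nat.mul_add] at hmul
  have eA : A ≤ alpha G P + alpha G Q := by
    by_contra hh
    have := Nat.mul_le_mul_left (m - 1) (show alpha G P + alpha G Q + 1 ≤ A by omega)
    rw [Nat.mul_add, Nat.mul_add, Nat.mul_one] at this
    omega
  have ext : ∀ R : Finset V, p ∉ R → alpha G R < A → (m - 1) * alpha G R ≤ R.card →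
      ∃ S, S ⊆ insert p R ∧ Indep G S ∧ alpha G R + 1 ≤ S.card ∧ p ∈ S := by
    intro R hpR hlt hle
    obtain ⟨S, s1, s2, s3⟩ := exists_alpha (G := G) (insert p R)
    have hgt : alpha G R < alpha G (insert p R) := by
      by_contra hh
      have := h.small (insert p R) (by omega)
      rw [Finset.card_insert_of_notMem hpR] at this
      have := Nat.mul_le_mul_left (m - 1) (not_lt.1 hh)
      omega
    refine ⟨S, s1, s2, by omega, ?_⟩
    by_contra hps
    have := le_alpha (G := G) (W := R) (fun z hz => (Finset.mem_insert.1 (s1 hz)).resolve_left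
      (fun e => hps (e ▸ hz))) s2
    omega
  obtain ⟨S, s1, s2, s3, s4⟩ := ext P hpP (by omega) (by omega)
  obtain ⟨S', t1, t2, t3, t4⟩ := ext Q hpQ (by omega) (by omega)
  have hind : Indep G (S ∪ S') := by
    refine s2.union t2 fun a ha b hb => ?_
    rcases Finset.mem_insert.1 (s1 ha) with rfl | ha'
    · exact t2 a t4 b hb
    rcases Finset.mem_insert.1 (t1 hb) with rfl | hb'
    · exact s2 a ha b s4
    exact hpq a ha' b hb'
  have hint : S ∩ S' ⊆ {p} := fun z hz => by
    obtain ⟨z1, z2⟩ := Finset.mem_inter.1 hz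
    rcases Finset.mem_insert.1 (s1 z1) with e | e
    · simp [e]
    rcases Finset.mem_insert.1 (t1 z2) with e' | e'
    · simp [e']
    exact absurd e' (Finset.disjoint_left.1 hd e)
  have := h.hA _ hind
  have := Finset.card_union_add_card_inter S S'
  have := Finset.card_le_card hint
  rw [Finset.card_singleton] at this
  omega

variable {T : Lay G}

/-- Dropping the first vertex of the upper path. -/
def Cfg.drop {i k r : ℕ} (F : Cfg T i (k + 1) r) (hk : 1 ≤ k) : Cfg T i k r where
  u a := F.u (a + 1)
  y := F.y
  hk := hk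
  hr := F.hr
  hu a h1 h2 := F.hu (a + 1) (by omega) (by omega)
  hy := F.hy
  uK a b h1 h2 h3 := F.uK (a + 1) (b + 1) (by omega) (by omega) (by omega)
  yK := F.yK
  uadj a h1 h2 := F.uadj (a + 1) (by omega) (by omega)
  yadj := F.yadj
  link := F.link

/-- A two-layer monotone path that is too long gives a cycle. -/
theorem Bad.mixed (h : Bad G m A) {i k r : ℕ} (F : Cfg T i k r) (hi : 1 ≤ i) (hiA : i + 1 ≤ A)
    (hsum : m ≤ k + r ∨ i = 1 ∧ m ≤ k + r + 1)
    (hball : ∃ S : Finset V, Indep G S ∧ i ≤ S.card ∧ ∀ a ∈ S, T.d a + 1 ≤ i) : HasCyc G m := by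
  have hAm := h.hAm
  have core : ∀ {k : ℕ} (F : Cfg T i k r), m ≤ k + r + 1 →
      (2 ≤ k → k + 2 * T.dl (F.u 1) (F.u k) + 1 ≤ m) → HasCyc G m := fun {k} F hs hU => by
    by_cases hd : F.c r = F.u k
    · exact F.extend hi hAm hs (fun hk => by have := hU hk; omega) hd h.cut h.hA hball
    · exact F.core (by omega) hs hU hd
  by_cases hk : k ≤ 1
  · exact core F (by omega) (fun h2 => by omega)
  have hD1 := T.one_le_dl (F.hu 1 le_rfl F.hk) (F.hu k F.hk le_rfl) (F.u_ne le_rfl (by omega) le_rfl)
  have hDi := T.dl_le (F.hu 1 le_rfl F.hk) (F.hu k F.hk le_rfl)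
  rcases Nat.lt_trichotomy (k + 2 * T.dl (F.u 1) (F.u k)) m with hlt | heq | hgt
  · exact core F (by omega) fun _ => by omega
  · by_cases hs : m ≤ k + r
    · obtain ⟨k', rfl⟩ : ∃ k', k = k' + 1 := ⟨k - 1, by omega⟩
      refine core (F.drop (by omega)) (by omega) fun hk2 => ?_
      have := T.dl_right (F.hu 1 le_rfl F.hk) (F.hu 2 (by omega) (by omega))
        (F.hu (k' + 1) F.hk le_rfl) (F.uKle le_rfl (by omega) (by omega))
        (F.uKle (by omega) (by omega) le_rfl)
      simp only [Cfg.drop, show (1 : ℕ) + 1 = 2 from rfl]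
      omega
    · have hi1 : i = 1 := by omega
      have hr := F.hr
      have hr1 : r = 1 := by omega
      subst hr1
      by_cases hd : F.c 1 = F.u k
      · exact F.extend hi hAm (by omega) (fun _ => by omega) hd h.cut h.hA hball
      by_cases hon : ∃ b, 1 ≤ b ∧ b ≤ k ∧ F.c 1 = F.u b
      · obtain ⟨b, b1, b2, hb⟩ := hon
        have hbk : b < k := lt_of_le_of_ne b2 fun e => hd (e ▸ hb)
        have := T.one_le_dl (F.hu 1 le_rfl F.hk) (F.hu (b + 1) (by omega) hbk)
          (F.u_ne le_rfl (by omega) hbk)
        have := T.dl_le (F.hu 1 le_rfl F.hk) (F.hu (b + 1) (by omega) hbk)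
        have C := F.cyc_on le_rfl b1 (show b < b + 1 by omega) hbk le_rfl le_rfl hb
        convert C using 2
        omega
      · have hoff : ∀ p, 1 ≤ p → p ≤ k → F.c 1 ≠ F.u p := fun p p1 p2 e => hon ⟨p, p1, p2, e⟩
        have hc := F.dc (l := 1) le_rfl le_rfl
        have := T.one_le_dl (F.hu 2 (by omega) (by omega)) hc (hoff 2 (by omega) (by omega)).symm
        have := T.dl_le (F.hu 2 (by omega) (by omega)) hc
        have C := F.cyc_off (show 1 ≤ 2 by omega) (by omega) le_rfl (le_refl 1) le_rfl le_rfl F.link
          fun p p1 p2 => hoff p (by omega) p2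
        convert C using 2
        omega
  · exact T.pure_cycle F.u F.hu F.uK F.uadj (by omega) (by omega) (by omega)

open Classical in
/-- The position of a vertex in the orientation: odd layers come first. -/
noncomputable def rk (T : Lay G) (x : V) : ℤ :=
  if Odd (T.d x) then (T.K x : ℤ) - (Finset.univ.sup T.K + 1 : ℕ)
  else (Finset.univ.sup T.K + 1 : ℕ) - (T.K x : ℤ)

theorem rk_lt {x y : V} (h : rk T x < rk T y) :
    (Odd (T.d y) → Odd (T.d x)) ∧
      (Odd (T.d x) → Odd (T.d y) → T.K x < T.K y) ∧
      (¬Odd (T.d x) → ¬Odd (T.d y) → T.K y < T.K x) := by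
  have hx := Finset.le_sup (f := T.K) (Finset.mem_univ x)
  have hy := Finset.le_sup (f := T.K) (Finset.mem_univ y)
  refine ⟨fun a => ?_, fun a b => ?_, fun a b => ?_⟩
  · by_contra b
    simp only [rk, a, b, if_true, if_false] at h
    omega
  · simp only [rk, a, b, if_true] at h
    omega
  · simp only [rk, a, b, if_false] at h
    omega

/-- An oriented path on `m` vertices, or on `m - 1` from layer one, gives a cycle. -/
theorem Bad.chain (h : Bad G m A) {j n : ℕ} (hj : j + 1 ≤ A) (f : ℕ → V)
    (hn : n = m ∨ n + 1 = m ∧ T.d (f 0) = 1)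
    (hd : ∀ t, t < n → 1 ≤ T.d (f t) ∧ T.d (f t) ≤ j + 1)
    (hR : ∀ t, t + 1 < n → G.Adj (f t) (f (t + 1)) ∧ rk T (f t) < rk T (f (t + 1)))
    (hball : ∀ i, 1 ≤ i → i ≤ j + 1 →
      ∃ S : Finset V, Indep G S ∧ i ≤ S.card ∧ ∀ a ∈ S, T.d a + 1 ≤ i) : HasCyc G m := by
  classical
  have hAm := h.hAm
  have hm := h.hm
  have hex : ∃ t, t = n ∨ t < n ∧ ¬Odd (T.d (f t)) := ⟨n, Or.inl rfl⟩
  let q := Nat.find hex
  have hqn : q ≤ n := Nat.find_min' hex (Or.inl rfl)
  have hodd : ∀ t, t < q → Odd (T.d (f t)) := fun t ht => by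
    have := Nat.find_min hex ht
    simp only [not_or, not_and, not_not] at this
    exact this.2 (by omega)
  have heven : ∀ t, q ≤ t → t < n → ¬Odd (T.d (f t)) := by
    intro t ht
    induction t, ht using Nat.le_induction with
    | base =>
      intro hlt
      rcases Nat.find_spec hex with e | e
      · exact absurd e (by omega)
      · exact e.2
    | succ t ht ih =>
      intro hlt ho
      exact ih (by omega) ((rk_lt (hR t hlt).2).1 ho)
  have hsame : ∀ t, t + 1 < n → t + 1 ≠ q → T.d (f t) = T.d (f (t + 1)) := by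
    intro t ht hne
    have a1 := T.adj_d _ _ (hR t ht).1
    have a2 := T.adj_d _ _ (hR t ht).1.symm
    rcases Nat.lt_or_ge (t + 1) q with h' | h'
    · have := Nat.odd_iff.1 (hodd t (by omega))
      have := Nat.odd_iff.1 (hodd (t + 1) h')
      omega
    · have := Nat.not_odd_iff.1 (heven t (by omega) (by omega))
      have := Nat.not_odd_iff.1 (heven (t + 1) h' ht)
      omega
  have lo : ∀ t, t < q → T.d (f t) = T.d (f 0) := by
    intro t
    induction t with
    | zero => intro _; rfl
    | succ t ih =>
      intro ht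
      rw [← hsame t (by omega) (by omega), ih (by omega)]
  have hi : ∀ t, q ≤ t → t < n → T.d (f t) = T.d (f q) := by
    intro t ht
    induction t, ht using Nat.le_induction with
    | base => intro _; rfl
    | succ t ht ih =>
      intro hlt
      rw [← hsame t hlt (by omega), ih (by omega)]
  have Klo : ∀ t t', t < t' → t' < q → T.K (f t) < T.K (f t') := by
    intro t t' htt
    induction t', htt using Nat.le_induction with
    | base => exact fun hq => (rk_lt (hR t (by omega)).2).2.1 (hodd t (by omega)) (hodd _ hq)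
    | succ s hs ih =>
      intro hq
      exact lt_trans (ih (by omega))
        ((rk_lt (hR s (by omega)).2).2.1 (hodd s (by omega)) (hodd _ hq))
  have Khi : ∀ t t', q ≤ t → t < t' → t' < n → T.K (f t') < T.K (f t) := by
    intro t t' hq htt
    induction t', htt using Nat.le_induction with
    | base =>
      exact fun hn' => (rk_lt (hR t (by omega)).2).2.2 (heven t hq (by omega)) (heven _ (by omega) hn')
    | succ s hs ih =>
      intro hn'
      exact lt_trans ((rk_lt (hR s (by omega)).2).2.2 (heven s (by omega) (by omega))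
        (heven _ (by omega) hn')) (ih (by omega))
  have hn1 : m ≤ n + 1 := by omega
  have pure : ∀ (g : ℕ → V) (l : ℕ), l ≤ j + 1 → (∀ a, 1 ≤ a → a ≤ n → T.d (g a) = l) →
      (∀ a b, 1 ≤ a → a < b → b ≤ n → T.K (g a) < T.K (g b)) →
      (∀ a, 1 ≤ a → a < n → G.Adj (g a) (g (a + 1))) → HasCyc G m := by
    intro g l hl gd gK ga
    have d1 := T.one_le_dl (gd 1 le_rfl (by omega)) (gd n (by omega) le_rfl) fun e => by
      have := gK 1 n le_rfl (by omega) le_rfl
      rw [e] at this
      omega
    have d2 := T.dl_le (gd 1 le_rfl (by omega)) (gd n (by omega) le_rfl)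
    exact T.pure_cycle g gd gK ga (by omega) (by omega) (by omega)
  have adj' : ∀ t, t + 1 < n → G.Adj (f (t + 1)) (f t) := fun t ht => (hR t ht).1.symm
  by_cases hq0 : q = 0
  · refine pure (fun a => f (n - a)) (T.d (f q)) (hd q (by omega)).2 (fun a h1 h2 => hi _ (by omega) (by omega))
      (fun a b h1 h2 h3 => Khi _ _ (by omega) (by omega) (by omega)) fun a h1 h2 => ?_
    simpa [show n - a = n - (a + 1) + 1 by omega] using adj' (n - (a + 1)) (by omega)
  by_cases hqe : q = n
  · refine pure (fun a => f (a - 1)) (T.d (f 0)) (hd 0 (by omega)).2 (fun a h1 h2 => lo _ (by omega))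
      (fun a b h1 h2 h3 => Klo _ _ (by omega) (by omega)) fun a h1 h2 => ?_
    simpa [show a + 1 - 1 = a - 1 + 1 by omega] using (hR (a - 1) (by omega)).1
  have hlink : G.Adj (f (q - 1)) (f q) := by
    simpa [show q - 1 + 1 = q by omega] using (hR (q - 1) (by omega)).1
  have e1 := lo (q - 1) (by omega)
  have a1 := T.adj_d _ _ hlink
  have a2 := T.adj_d _ _ hlink.symm
  have p1 := Nat.odd_iff.1 (hodd 0 (by omega))
  have p2 := Nat.not_odd_iff.1 (heven q le_rfl (by omega))
  have b1 := hd 0 (by omega)
  have b2 := hd q (by omega)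
  rcases Nat.lt_or_ge (T.d (f 0)) (T.d (f q)) with hup | hdown
  · let F : Cfg T (T.d (f 0)) q (n - q) :=
    { u := fun a => f (a - 1)
      y := fun l => f (q + l - 1)
      hk := by omega
      hr := by omega
      hu := fun a h1 h2 => lo _ (by omega)
      hy := fun l h1 h2 => by rw [hi _ (by omega) (by omega)]; omega
      uK := fun a b h1 h2 h3 => Klo _ _ (by omega) (by omega)
      yK := fun a b h1 h2 h3 => Khi _ _ (by omega) (by omega) (by omega)
      uadj := fun a h1 h2 => by
        simpa [show a + 1 - 1 = a - 1 + 1 by omega] using (hR (a - 1) (by omega)).1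
      yadj := fun l h1 h2 => by
        simpa [show q + (l + 1) - 1 = q + l - 1 + 1 by omega] using (hR (q + l - 1) (by omega)).1
      link := by simpa [show q + 1 - 1 = q by omega] using hlink }
    exact h.mixed F b1.1 (by omega) (by omega) (hball _ b1.1 b1.2)
  · let F : Cfg T (T.d (f q)) (n - q) q :=
    { u := fun a => f (n - a)
      y := fun l => f (q - l)
      hk := by omega
      hr := by omega
      hu := fun a h1 h2 => hi _ (by omega) (by omega)
      hy := fun l h1 h2 => by rw [lo _ (by omega)]; omega
      uK := fun a b h1 h2 h3 => Khi _ _ (by omega) (by omega) (by omega)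
      yK := fun a b h1 h2 h3 => Klo _ _ (by omega) (by omega)
      uadj := fun a h1 h2 => by
        simpa [show n - a = n - (a + 1) + 1 by omega] using adj' (n - (a + 1)) (by omega)
      yadj := fun l h1 h2 => by
        simpa [show q - l = q - (l + 1) + 1 by omega] using adj' (q - (l + 1)) (by omega)
      link := by simpa [show n - (n - q) = q by omega] using hlink.symm }
    exact h.mixed F b2.1 (by omega) (by omega) (hball _ b2.1 b2.2)

/-- There is no counterexample. -/
theorem Bad.false (h : Bad G m A) : False := by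
  classical
  have := h.nonempty
  obtain ⟨v⟩ := this
  obtain ⟨T, hroot, -⟩ := exists_lay G v h.connected
  have hm := h.hm
  have key : ∀ j, j ≤ A → ∃ S : Finset V, Indep G S ∧ j + 1 ≤ S.card ∧ ∀ a ∈ S, T.d a ≤ j := by
    intro j
    induction j using Nat.strong_induction_on with
    | _ j ih =>
    intro hj
    cases j with
    | zero =>
      refine ⟨{T.root}, ?_, by simp, by simp [T.d_root]⟩
      intro a ha b hb
      rw [Finset.mem_singleton] at ha hb
      subst ha hb
      exact G.irrefl
    | succ j =>
      obtain ⟨S0, s1, s2, s3⟩ := ih j (Nat.lt_succ_self j) (by omega)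
      let B := Finset.univ.filter fun z => T.d z ≤ j
      let B' := Finset.univ.filter fun z => T.d z ≤ j + 1
      let U := Finset.univ.filter fun z => ¬T.d z ≤ j + 1
      have ha := le_alpha (G := G) (W := B) (fun z hz => by simp [B, s3 z hz]) s1
      by_cases hgrow : alpha G B + 1 ≤ alpha G B'
      · obtain ⟨S, t1, t2, t3⟩ := exists_alpha (G := G) B'
        refine ⟨S, t2, by omega, fun a h' => ?_⟩
        have := t1 h'
        simpa [B'] using this
      exfalso
      have hBU := h.alpha_add (X := B) (Y := U) (fun a p b q e => by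
        simp only [B, U, Finset.mem_filter, Finset.mem_univ, true_and] at p q
        have := T.adj_d b a e.symm
        omega) (Finset.disjoint_filter.2 fun z _ p q => by omega)
      have cU := h.small U (by omega)
      have csum : B'.card + U.card = Fintype.card V :=
        Finset.card_filter_add_card_filter_not (s := Finset.univ) (fun z => T.d z ≤ j + 1)
      have hbig := h.big
      have hBlarge : (m - 1) * alpha G B < B'.card := by
        have := Nat.mul_le_mul_left (m - 1) hBU
        rw [Nat.mul_add] at this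
        omega
      let D := B'.erase T.root
      have hD : ∀ z, z ∈ D ↔ 1 ≤ T.d z ∧ T.d z ≤ j + 1 := by
        intro z
        simp only [D, B', Finset.mem_erase, Finset.mem_filter, Finset.mem_univ, true_and]
        refine ⟨fun ⟨a, b⟩ => ⟨Nat.pos_of_ne_zero fun e => a (T.d_zero z e), b⟩,
          fun ⟨a, b⟩ => ⟨fun e => by rw [e, T.d_root] at a; omega, b⟩⟩
      let Ch : ℕ → V → Prop := fun n x => ∃ f : ℕ → V, f 0 = x ∧
        (∀ t, t < n → f t ∈ D) ∧ ∀ t, t + 1 < n → G.Adj (f t) (f (t + 1)) ∧
          rk T (f t) < rk T (f (t + 1))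
      have hball : ∀ i, 1 ≤ i → i ≤ j + 1 →
          ∃ S : Finset V, Indep G S ∧ i ≤ S.card ∧ ∀ a ∈ S, T.d a + 1 ≤ i := by
        intro i i1 i2
        obtain ⟨S, a, b, c⟩ := ih (i - 1) (by omega) (by omega)
        exact ⟨S, a, by omega, fun z hz => by have := c z hz; omega⟩
      have noM : ∀ x, ¬Ch m x := fun x ⟨f, _, f1, f2⟩ => h.free
        (h.chain (j := j) hj f (Or.inl rfl) (fun t ht => (hD _).1 (f1 t ht)) f2 hball)
      have noTop : ∀ x, T.d x = 1 → ¬Ch (m - 1) x := fun x hx ⟨f, f0, f1, f2⟩ => h.free
        (h.chain (j := j) hj f (Or.inr ⟨by omega, f0 ▸ hx⟩) (fun t ht => (hD _).1 (f1 t ht)) f2 hball)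
      let ht : V → ℕ := fun x => Nat.findGreatest (fun n => Ch n x) (m - 1)
      have ht1 : ∀ x ∈ D, 1 ≤ ht x ∧ ht x ≤ m - 1 := fun x hx =>
        ⟨Nat.le_findGreatest (by omega) ⟨fun _ => x, rfl, fun _ _ => hx, fun t h' => by omega⟩,
          Nat.findGreatest_le _⟩
      have htC : ∀ x ∈ D, Ch (ht x) x := fun x hx =>
        Nat.findGreatest_spec (m := 1) (P := fun n => Ch n x) (by omega)
          ⟨fun _ => x, rfl, fun _ _ => hx, fun t h' => by omega⟩
      have up : ∀ x ∈ D, ∀ y ∈ D, G.Adj x y → rk T x < rk T y → ht x ≠ ht y := by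
        intro x hx y hy hxy hr e
        obtain ⟨f, f0, f1, f2⟩ := htC y hy
        have hch : Ch (ht y + 1) x := by
          refine ⟨fun t => if t = 0 then x else f (t - 1), by simp, fun t h' => ?_, fun t h' => ?_⟩
          · by_cases t0 : t = 0
            · simpa [t0] using hx
            · simpa [t0] using f1 (t - 1) (by omega)
          · by_cases t0 : t = 0
            · simpa [t0, f0] using And.intro hxy hr
            · simpa [t0, show t - 1 + 1 = t by omega] using f2 (t - 1) (by omega)
        rcases lt_or_eq_of_le (ht1 y hy).2 with h' | h'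
        · have : ht y + 1 ≤ ht x := Nat.le_findGreatest (by omega) hch
          omega
        · rw [h', show m - 1 + 1 = m by omega] at hch
          exact noM x hch
      have cls : ∀ c, Indep G (D.filter fun x => ht x = c) := by
        intro c a pa b pb hab
        rw [Finset.mem_filter] at pa pb
        rcases lt_trichotomy (rk T a) (rk T b) with h' | h' | h'
        · exact up a pa.1 b pb.1 hab h' (pa.2.trans pb.2.symm)
        · have hab' := T.adj_d _ _ hab
          have hba' := T.adj_d _ _ hab.symm
          refine hab.ne (T.inj a b ?_ ?_)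
          all_goals
            have hx := Finset.le_sup (f := T.K) (Finset.mem_univ a)
            have hy := Finset.le_sup (f := T.K) (Finset.mem_univ b)
            by_cases oa : Odd (T.d a) <;> by_cases ob : Odd (T.d b) <;>
              simp only [rk, oa, ob, if_true, if_false] at h' <;>
              simp only [Nat.odd_iff] at oa ob <;> omega
        · exact up b pb.1 a pa.1 hab.symm h' (pb.2.trans pa.2.symm)
      have cle : ∀ c, (D.filter fun x => ht x = c).card ≤ alpha G B := fun c =>
        ((le_alpha (W := B') (fun z hz => Finset.mem_of_mem_erase (Finset.mem_filter.1 hz).1)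
          (cls c)).trans (by omega))
      have ctop : (D.filter fun x => ht x = m - 1).card + 1 ≤ alpha G B := by
        have hnot : T.root ∉ D.filter fun x => ht x = m - 1 := by simp [D]
        have hind : Indep G (insert T.root (D.filter fun x => ht x = m - 1)) := by
          intro a pa b pb hab
          have far : ∀ z ∈ D.filter fun x => ht x = m - 1, ¬G.Adj T.root z := by
            intro z pz e
            rw [Finset.mem_filter] at pz
            have := T.adj_d z T.root e.symm
            rw [T.d_root] at this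
            have := ((hD z).1 pz.1).1
            exact noTop z (by omega) (pz.2 ▸ htC z pz.1)
          rcases Finset.mem_insert.1 pa with rfl | pa <;> rcases Finset.mem_insert.1 pb with rfl | pb
          · exact hab.ne rfl
          · exact far b pb hab
          · exact far a pa hab.symm
          · exact cls _ a pa b pb hab
        have := le_alpha (W := B') (Finset.insert_subset (by simp [B', T.d_root])
          fun z hz => Finset.mem_of_mem_erase (Finset.mem_filter.1 hz).1) hind
        rw [Finset.card_insert_of_notMem hnot] at this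
        omega
      have hsplit : D.card = ∑ c ∈ Finset.Icc 1 (m - 1), (D.filter fun x => ht x = c).card :=
        Finset.card_eq_sum_card_fiberwise fun x hx => Finset.mem_coe.2 (Finset.mem_Icc.2 (ht1 x hx))
      rw [← Finset.insert_erase (show m - 1 ∈ Finset.Icc 1 (m - 1) from
        Finset.mem_Icc.2 ⟨by omega, le_rfl⟩), Finset.sum_insert (Finset.notMem_erase _ _)] at hsplit
      have hrest := Finset.sum_le_card_nsmul ((Finset.Icc 1 (m - 1)).erase (m - 1)) _ _
        fun c _ => cle c
      rw [smul_eq_mul, Finset.card_erase_of_mem (Finset.mem_Icc.2 ⟨by omega, le_rfl⟩),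
        Nat.card_Icc] at hrest
      have hDc : B'.card ≤ D.card + 1 := by
        have := Finset.pred_card_le_card_erase (a := T.root) (s := B')
        simp only [D]
        omega
      obtain ⟨e, rfl⟩ : ∃ e, m = e + 3 := ⟨m - 3, by omega⟩
      simp only [show e + 3 - 1 + 1 - 1 - 1 = e + 1 by omega] at hrest
      rw [show e + 3 - 1 = e + 2 by omega] at hBlarge hsplit hrest ctop
      nlinarith
  obtain ⟨S, hS, hc, -⟩ := key A le_rfl
  have := h.hA S hS
  omega

/-- The upper bound. -/
theorem card_le : ∀ (A : ℕ) (V : Type) [Fintype V] (G : SimpleGraph V) (m : ℕ), 3 ≤ m →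
    2 * A + 1 ≤ m → ¬HasCyc G m → (∀ S : Finset V, Indep G S → S.card ≤ A) →
    Fintype.card V ≤ (m - 1) * A := by
  classical
  intro A
  induction A using Nat.strong_induction_on with
  | _ A ih =>
  intro V _ G m hm hAm hfree hA
  by_contra hbig
  refine Bad.false (G := G) (m := m) (A := A) ⟨hm, hAm, hfree, hA, fun U hU => ?_, by omega⟩
  have := ih (alpha G U) hU U (G.induce (U : Set V)) m hm (by omega) ?_ ?_
  · simpa using this
  · rintro ⟨u, w, hw, hl⟩
    let f := (SimpleGraph.Embedding.induce (G := G) (U : Set V)).toHom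
    exact hfree ⟨f u, w.map f, hw.map Subtype.val_injective, by simpa using hl⟩
  · intro S hS
    have := le_alpha (G := G) (W := U) (S := S.map (Function.Embedding.subtype _))
      (fun z hz => by
        obtain ⟨s, -, rfl⟩ := Finset.mem_map.1 hz
        exact s.2)
      (fun a ha b hb => by
        obtain ⟨s, hs, rfl⟩ := Finset.mem_map.1 ha
        obtain ⟨s', hs', rfl⟩ := Finset.mem_map.1 hb
        exact hS s hs s' hs')
    simpa using this

end Vale.Agent.P048
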