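import Vale.Agent.P048.Layer

/-! # Paths crossing between two layers -/

namespace Vale.Agent.P048

open Finset

variable {V : Type*} {G : SimpleGraph V}

/-- An ascending path `u 1, ..., u k` in layer `i` followed by a descending path `y 1, ..., y r`
in layer `i + 1`. -/
structure Cfg (T : Lay G) (i k r : ℕ) where
  u : ℕ → V
  y : ℕ → V
  hk : 1 ≤ k
  hr : 1 ≤ r
  hu : ∀ a, 1 ≤ a → a ≤ k → T.d (u a) = i
  hy : ∀ l, 1 ≤ l → l ≤ r → T.d (y l) = i + 1
  uK : ∀ a b, 1 ≤ a → a < b → b ≤ k → T.K (u a) < T.K (u b)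
  yK : ∀ a b, 1 ≤ a → a < b → b ≤ r → T.K (y b) < T.K (y a)
  uadj : ∀ a, 1 ≤ a → a < k → G.Adj (u a) (u (a + 1))
  yadj : ∀ l, 1 ≤ l → l < r → G.Adj (y l) (y (l + 1))
  link : G.Adj (u k) (y 1)

variable {T : Lay G} {i k r m : ℕ} (F : Cfg T i k r)

/-- The parent of `y l`. -/
def Cfg.c (l : ℕ) : V := T.par (F.y l)

/-- The parent of `y x` is none of the `u a`. -/
def Cfg.Off (x : ℕ) : Prop := ∀ b, 1 ≤ b → b ≤ k → F.c x ≠ F.u b

variable {F}

theorem Cfg.dc {l : ℕ} (h1 : 1 ≤ l) (h2 : l ≤ r) : T.d (F.c l) = i := by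
  have := T.par_d (F.y l) (by rw [F.hy l h1 h2]; omega)
  rw [F.hy l h1 h2] at this
  unfold Cfg.c
  omega

theorem Cfg.cadj {l : ℕ} (h1 : 1 ≤ l) (h2 : l ≤ r) : G.Adj (F.y l) (F.c l) :=
  (T.par_adj (F.y l) (by rw [F.hy l h1 h2]; omega)).symm

theorem Cfg.uKle {a b : ℕ} (h1 : 1 ≤ a) (h2 : a ≤ b) (h3 : b ≤ k) :
    T.K (F.u a) ≤ T.K (F.u b) := by
  rcases lt_or_eq_of_le h2 with h | h
  · exact (F.uK a b h1 h h3).le
  · rw [h]

theorem Cfg.cKle {a b : ℕ} (h1 : 1 ≤ a) (h2 : a ≤ b) (h3 : b ≤ r) :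
    T.K (F.c b) ≤ T.K (F.c a) := by
  rcases lt_or_eq_of_le h2 with h | h
  · exact T.mono _ _ (by rw [F.hy b (h1.trans h2) h3, F.hy a h1 (h2.trans h3)])
      (by rw [F.hy b (h1.trans h2) h3]; omega) (F.yK a b h1 h h3)
  · rw [h]

theorem Cfg.c_le_top {l : ℕ} (h1 : 1 ≤ l) (h2 : l ≤ r) : T.K (F.c l) ≤ T.K (F.u k) :=
  (F.cKle le_rfl h1 h2).trans <| T.least _ _ F.link.symm
    (by rw [F.hy 1 le_rfl F.hr, F.hu k F.hk le_rfl])

theorem Cfg.u_ne {a b : ℕ} (h1 : 1 ≤ a) (h2 : a < b) (h3 : b ≤ k) : F.u a ≠ F.u b := fun h => by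
  have := F.uK a b h1 h2 h3
  rw [h] at this
  omega

theorem Cfg.y_ne {a b : ℕ} (h1 : 1 ≤ a) (h2 : a < b) (h3 : b ≤ r) : F.y a ≠ F.y b := fun h => by
  have := F.yK a b h1 h2 h3
  rw [h] at this
  omega

theorem Cfg.useg {a b : ℕ} (h1 : 1 ≤ a) (h2 : a ≤ b) (h3 : b ≤ k) :
    Pth G (F.u a) (F.u b) (b - a + 1) (F.u '' Set.Icc a b) :=
  Pth.seg F.u h2 (fun _ _ p q w => F.u_ne (h1.trans p) q (w.trans h3))
    fun p hp hq => F.uadj p (h1.trans hp) (hq.trans_le h3)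

theorem Cfg.yseg {a b : ℕ} (h1 : 1 ≤ a) (h2 : a ≤ b) (h3 : b ≤ r) :
    Pth G (F.y a) (F.y b) (b - a + 1) (F.y '' Set.Icc a b) :=
  Pth.seg F.y h2 (fun _ _ p q w => F.y_ne (h1.trans p) q (w.trans h3))
    fun p hp hq => F.yadj p (h1.trans hp) (hq.trans_le h3)

theorem Cfg.u_y_disj {a b a' b' : ℕ} (h1 : 1 ≤ a) (h2 : b ≤ k) (h3 : 1 ≤ a') (h4 : b' ≤ r) :
    Disjoint (F.u '' Set.Icc a b) (F.y '' Set.Icc a' b') := by
  rw [Set.disjoint_left]
  rintro w ⟨p, ⟨p1, p2⟩, rfl⟩ ⟨q, ⟨q1, q2⟩, he⟩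
  have := F.hu p (h1.trans p1) (p2.trans h2)
  have := F.hy q (h3.trans q1) (q2.trans h4)
  rw [he] at this
  omega

theorem Cfg.c_notin_y {l a' b' : ℕ} (h1 : 1 ≤ l) (h2 : l ≤ r) (h3 : 1 ≤ a') (h4 : b' ≤ r) :
    F.c l ∉ F.y '' Set.Icc a' b' := by
  rintro ⟨q, ⟨q1, q2⟩, he⟩
  have := F.hy q (h3.trans q1) (q2.trans h4)
  rw [he, F.dc h1 h2] at this
  omega

theorem Cfg.high_u {a b : ℕ} (h1 : 1 ≤ a) (h2 : b ≤ k) :
    ∀ w ∈ F.u '' Set.Icc a b, i ≤ T.d w := by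
  rintro w ⟨p, ⟨p1, p2⟩, rfl⟩
  exact (F.hu p (h1.trans p1) (p2.trans h2)).ge

theorem Cfg.high_y {a b : ℕ} (h1 : 1 ≤ a) (h2 : b ≤ r) :
    ∀ w ∈ F.y '' Set.Icc a b, i ≤ T.d w := by
  rintro w ⟨p, ⟨p1, p2⟩, rfl⟩
  rw [F.hy p (h1.trans p1) (p2.trans h2)]
  omega

/-- From `u a` up to `u b`, into the `y` sequence at `z`, out at `x` to the parent of `y x`. -/
theorem Cfg.cyc_off {a b z x : ℕ} (ha : 1 ≤ a) (hab : a ≤ b) (hbk : b ≤ k) (hz : 1 ≤ z)
    (hzx : z ≤ x) (hx : x ≤ r) (hadj : G.Adj (F.u b) (F.y z))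
    (hc : ∀ p, a ≤ p → p ≤ b → F.c x ≠ F.u p) :
    HasCyc G ((b - a + 1) + (x - z + 1) + 2 * T.dl (F.u a) (F.c x)) := by
  have hx1 : 1 ≤ x := hz.trans hzx
  have P := ((F.useg ha hab hbk).append hadj (F.yseg hz hzx hx)
    (F.u_y_disj ha hbk hz hx)).snoc (F.cadj hx1 hx) (by
      rintro (⟨p, ⟨p1, p2⟩, he⟩ | h)
      · exact hc p p1 p2 he.symm
      · exact F.c_notin_y hx1 hx hz hx h)
  have C := T.close (i := i) P (by
    rintro w ((h | h) | h)
    · exact F.high_u ha hbk w h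
    · exact F.high_y hz hx w h
    · rw [Set.mem_singleton_iff] at h
      exact h ▸ (F.dc hx1 hx).ge) (F.hu a ha (hab.trans hbk)) (F.dc hx1 hx)
    (fun h => hc a le_rfl hab h.symm) (by omega)
  convert C using 2
  omega

/-- The same, entering at `z` from above and leaving at `w`, with `z ≤ w`. -/
theorem Cfg.cyc_back {a b z w : ℕ} (ha : 1 ≤ a) (hab : a ≤ b) (hbk : b ≤ k) (hz : 1 ≤ z)
    (hzw : z ≤ w) (hw : w ≤ r) (hadj : G.Adj (F.u b) (F.y w))
    (hc : ∀ p, a ≤ p → p ≤ b → F.c z ≠ F.u p) :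
    HasCyc G ((b - a + 1) + (w - z + 1) + 2 * T.dl (F.u a) (F.c z)) := by
  have hz2 : z ≤ r := hzw.trans hw
  have P := ((F.useg ha hab hbk).append hadj (F.yseg hz hzw hw).symm
    (F.u_y_disj ha hbk hz hw)).snoc (F.cadj hz hz2) (by
      rintro (⟨p, ⟨p1, p2⟩, he⟩ | h)
      · exact hc p p1 p2 he.symm
      · exact F.c_notin_y hz hz2 hz hw h)
  have C := T.close (i := i) P (by
    rintro v ((h | h) | h)
    · exact F.high_u ha hbk v h
    · exact F.high_y hz hw v h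
    · rw [Set.mem_singleton_iff] at h
      exact h ▸ (F.dc hz hz2).ge) (F.hu a ha (hab.trans hbk)) (F.dc hz hz2)
    (fun h => hc a le_rfl hab h.symm) (by omega)
  convert C using 2
  omega

/-- A parent lying on the path. -/
theorem Cfg.cyc_on {a b a' x : ℕ} (ha : 1 ≤ a) (hab : a ≤ b) (hba : b < a') (hak : a' ≤ k)
    (hx1 : 1 ≤ x) (hx : x ≤ r) (hc : F.c x = F.u b) :
    HasCyc G ((k - a' + 1) + x + (b - a + 1) + 2 * T.dl (F.u a) (F.u a') - 1) := by
  have hd : Disjoint (F.u '' Set.Icc a' k ∪ F.y '' Set.Icc 1 x) (F.u '' Set.Icc a b) := by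
    rw [Set.disjoint_union_left]
    refine ⟨?_, (F.u_y_disj ha (by omega) le_rfl hx).symm⟩
    rw [Set.disjoint_left]
    rintro w ⟨p, ⟨p1, p2⟩, rfl⟩ ⟨q, ⟨q1, q2⟩, he⟩
    exact F.u_ne (ha.trans q1) (show q < p by omega) p2 he
  have P := ((F.useg (by omega) hak le_rfl).append F.link (F.yseg le_rfl hx1 hx)
    (F.u_y_disj (by omega) le_rfl le_rfl hx)).append (hc ▸ F.cadj hx1 hx)
    (F.useg ha hab (by omega)).symm hd
  have C := T.close (i := i) P (by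
    rintro w ((h | h) | h)
    · exact F.high_u (by omega) le_rfl w h
    · exact F.high_y le_rfl hx w h
    · exact F.high_u ha (by omega) w h) (F.hu a' (by omega) hak) (F.hu a ha (by omega))
    (F.u_ne ha (by omega) hak).symm (by omega)
  rw [T.dl_comm] at C
  convert C using 2
  omega

/-- A window of `y` closed through two different parents. -/
theorem Cfg.cyc_y {z' z : ℕ} (h1 : 1 ≤ z') (h2 : z' < z) (h3 : z ≤ r) :
    HasCyc G ((z - z' + 1) + 2 * (T.dl (F.c z') (F.c z) + 1) - 1) := by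
  have C := T.close (i := i + 1) (F.yseg h1 h2.le h3) (by
    rintro w ⟨p, ⟨p1, p2⟩, rfl⟩
    exact (F.hy p (h1.trans p1) (p2.trans h3)).ge) (F.hy z' h1 (by omega))
    (F.hy z (by omega) h3) (F.y_ne h1 h2 h3) (by omega)
  rwa [T.dl_par (F.hy z' h1 (by omega)) (F.hy z (by omega) h3) (F.y_ne h1 h2 h3)] at C

theorem Cfg.dl_top {x : ℕ} (h1 : 1 ≤ x) (h2 : x ≤ r) : T.dl (F.c x) (F.u k) ≤ i :=
  T.dl_le (F.dc h1 h2) (F.hu k F.hk le_rfl)

/-- The fallback. -/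
theorem Cfg.fallback (hm : 2 * i + 3 ≤ m) {x : ℕ} (h1 : 1 ≤ x) (h2 : x ≤ r)
    (hne : F.c x ≠ F.u k) (hbig : m ≤ 1 + x + 2 * T.dl (F.c x) (F.u k)) : HasCyc G m := by
  classical
  have hDi := F.dl_top h1 h2
  obtain ⟨D, hD⟩ : ∃ D, T.dl (F.c x) (F.u k) = D := ⟨_, rfl⟩
  rw [hD] at hbig hDi
  have hex : ∃ z, 1 ≤ z ∧ z ≤ x ∧ T.dl (F.c z) (F.u k) = D := ⟨x, h1, le_rfl, hD⟩
  let z0 := Nat.find hex
  have hz0 : 1 ≤ z0 ∧ z0 ≤ x ∧ T.dl (F.c z0) (F.u k) = D := Nat.find_spec hex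
  have hD1 : 1 ≤ D := hD ▸ T.one_le_dl (F.dc h1 h2) (F.hu k F.hk le_rfl) hne
  have up : ∀ z, z0 ≤ z → z ≤ x → T.dl (F.c z) (F.u k) = D := fun z a b => by
    have := T.dl_right (F.dc h1 h2) (F.dc (by omega) (b.trans h2)) (F.hu k F.hk le_rfl)
      (F.cKle (by omega) b h2) (F.c_le_top (by omega) (b.trans h2))
    have := T.dl_right (F.dc (show 1 ≤ z by omega) (b.trans h2)) (F.dc hz0.1 (hz0.2.1.trans h2))
      (F.hu k F.hk le_rfl) (F.cKle hz0.1 a (b.trans h2)) (F.c_le_top hz0.1 (hz0.2.1.trans h2))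
    have := hz0.2.2
    omega
  by_cases h : z0 = 1
  · -- the last vertex of the upper path suffices
    let z := m - 1 - 2 * D
    have hz : z0 ≤ z ∧ z ≤ x := by omega
    have hne' : ∀ p, k ≤ p → p ≤ k → F.c z ≠ F.u p := fun p a b he => by
      rw [show p = k by omega] at he
      have := up z hz.1 hz.2
      rw [he] at this
      have := T.dl_le_of_eq (s := 0) (rfl : T.anc 0 (F.u k) = T.anc 0 (F.u k))
      omega
    have C := F.cyc_off F.hk le_rfl le_rfl le_rfl (show 1 ≤ z by omega) (hz.2.trans h2) F.link hne'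
    rw [T.dl_comm, up z hz.1 hz.2] at C
    rwa [show k - k + 1 + (z - 1 + 1) + 2 * D = m by omega] at C
  · have low : ∀ z, 1 ≤ z → z < z0 → T.dl (F.c z) (F.u k) < D := fun z a b => by
      have := T.dl_right (F.dc h1 h2) (F.dc a (by omega)) (F.hu k F.hk le_rfl)
        (F.cKle a (by omega) h2) (F.c_le_top a (by omega))
      have := Nat.find_min hex b
      simp only [a, true_and, show z ≤ x by omega] at this
      omega
    obtain ⟨z', z, a1, a2, a3, a4, a5⟩ : ∃ z' z, 1 ≤ z' ∧ z' < z0 ∧ z0 ≤ z ∧ z ≤ x ∧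
        z = z' + (m - 2 - 2 * D) := by
      by_cases hg : m - 2 - 2 * D < z0
      · exact ⟨z0 - (m - 2 - 2 * D), z0, by omega, by omega, le_rfl, hz0.2.1, by omega⟩
      · exact ⟨1, 1 + (m - 2 - 2 * D), le_rfl, by omega, by omega, by omega, rfl⟩
    have e : T.dl (F.c z') (F.c z) = D := by
      have := up z a3 a4
      have := low z' a1 a2
      have := T.dl_max (F.dc (show 1 ≤ z by omega) (a4.trans h2)) (F.dc a1 (by omega))
        (F.hu k F.hk le_rfl)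
      have := T.dl_left (F.dc (show 1 ≤ z by omega) (a4.trans h2)) (F.dc a1 (by omega))
        (F.hu k F.hk le_rfl) (F.cKle a1 (by omega) (a4.trans h2)) (F.c_le_top a1 (by omega))
      have := T.dl_comm (F.c z') (F.c z)
      omega
    have C := F.cyc_y a1 (show z' < z by omega) (a4.trans h2)
    rw [e] at C
    rwa [show z - z' + 1 + 2 * (D + 1) - 1 = m by omega] at C

/-- The last parent lies below some `u a`. -/
theorem Cfg.below (hm : 2 * i + 3 ≤ m) {a : ℕ} (ha : 1 ≤ a) (hak : a ≤ k)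
    (hlt : T.K (F.c r) < T.K (F.u a))
    (hbig : m ≤ (k - a + 1) + r + 2 * T.dl (F.u a) (F.c r)) : HasCyc G m := by
  have hne : ∀ p, a ≤ p → p ≤ k → F.c r ≠ F.u p := fun p h1 h2 he => by
    have := F.uKle ha h1 h2
    rw [← he] at this
    omega
  by_cases hf : m ≤ 1 + r + 2 * T.dl (F.u k) (F.c r)
  · exact F.fallback hm F.hr le_rfl (hne k hak le_rfl) (by rwa [T.dl_comm])
  obtain ⟨n, h1, h2, h3⟩ := exists_eq_of_step
    (m := m) (f := fun n => (k - n + 1) + r + 2 * T.dl (F.u n) (F.c r)) hak hbig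
    (by simp only [Nat.sub_self]; omega) (fun n h1 h2 => by
      have := T.dl_left (F.dc F.hr le_rfl) (F.hu n (ha.trans h1) h2.le)
        (F.hu (n + 1) (by omega) h2)
        (hlt.le.trans (F.uKle ha h1 h2.le)) (F.uKle (ha.trans h1) (Nat.le_succ n) h2)
      have := T.dl_comm (F.c r) (F.u n)
      have := T.dl_comm (F.c r) (F.u (n + 1))
      omega)
  have C := F.cyc_off (ha.trans h1) h2 le_rfl le_rfl F.hr le_rfl F.link
    (fun p p1 p2 => hne p (h1.trans p1) p2)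
  have := F.hr
  convert C using 2
  omega

/-- A parent on the path with enough room above it. -/
theorem Cfg.onpath (hm : 2 * i + 3 ≤ m) (hU : k + 2 * T.dl (F.u 1) (F.u k) + 1 ≤ m) {x b : ℕ}
    (hx1 : 1 ≤ x) (hx : x ≤ r) (hb1 : 1 ≤ b) (hbk : b < k) (hc : F.c x = F.u b)
    (hbig : m + 1 ≤ k + x + 2 * T.dl (F.u 1) (F.u (b + 1))) : HasCyc G m := by
  classical
  by_cases hg : b + x + 2 * T.dl (F.u 1) (F.u k) ≤ m
  · obtain ⟨n, h1, h2, h3⟩ := exists_eq_of_step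
      (m := m) (f := fun n => (k - n + 1) + x + b + 2 * T.dl (F.u 1) (F.u n) - 1) (show b + 1 ≤ k from hbk)
      (by omega) (by simp only [Nat.sub_self]; omega) (fun n h1 h2 => by
        have := T.dl_left (F.hu 1 le_rfl F.hk) (F.hu n (by omega) h2.le)
          (F.hu (n + 1) (by omega) h2) (F.uKle le_rfl (by omega) h2.le)
          (F.uKle (by omega) (Nat.le_succ n) h2)
        omega)
    have C := F.cyc_on le_rfl hb1 (show b < n by omega) h2 hx1 hx hc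
    convert C using 2
    omega
  obtain ⟨t, ht1, htk, ht⟩ := T.split F.u (by omega) F.hu F.uK
  generalize hD : T.dl (F.u 1) (F.u k) = D at *
  by_cases hbt : b ≤ t
  · by_cases hl : x + 1 + 2 * D ≤ m
    · have C := F.cyc_on (show 1 ≤ b + 1 - (m - x - 2 * D) by omega) (by omega) hbk le_rfl hx1 hx hc
      rw [ht _ k (by omega) (by omega) htk le_rfl] at C
      convert C using 2
      omega
    · refine F.fallback hm hx1 hx (hc ▸ F.u_ne hb1 hbk le_rfl) ?_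
      rw [hc, ht b k hb1 hbt htk le_rfl]
      omega
  -- now `t < b`
  have cz : ∀ z, 1 ≤ z → z ≤ x → T.K (F.u b) ≤ T.K (F.c z) := fun z h1 h2 =>
    hc ▸ F.cKle h1 h2 hx
  by_cases hs : F.c 1 = F.u b
  · -- every parent up to `x` is `u b`
    have all : ∀ z, 1 ≤ z → z ≤ x → F.c z = F.u b := fun z h1 h2 =>
      T.inj _ _ (by rw [F.dc h1 (h2.trans hx), F.hu b hb1 hbk.le]) <| le_antisymm
        ((F.cKle le_rfl h1 (h2.trans hx)).trans (hs ▸ le_rfl)) (cz z h1 h2)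
    by_cases hT : m - 2 * D ≤ b + 1
    · have C := F.cyc_on (show 1 ≤ b + 2 - (m - 2 * D) by omega) (by omega) hbk le_rfl
        (le_refl 1) F.hr (all 1 le_rfl hx1)
      rw [ht _ k (by omega) (by omega) htk le_rfl] at C
      convert C using 2
      omega
    · have C := F.cyc_on le_rfl hb1 hbk le_rfl (show 1 ≤ m - 2 * D - b by omega)
        (by omega) (all _ (by omega) (by omega))
      rw [hD] at C
      convert C using 2
      omega
  have hex : ∃ w, 1 ≤ w ∧ F.c w = F.u b := ⟨x, hx1, hc⟩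
  let w0 := Nat.find hex
  have hw0 : 1 ≤ w0 ∧ F.c w0 = F.u b := Nat.find_spec hex
  have hw0x : w0 ≤ x := Nat.find_min' hex ⟨hx1, hc⟩
  have hw2 : 2 ≤ w0 := by
    by_contra h
    exact hs ((show w0 = 1 by omega) ▸ hw0.2)
  obtain ⟨a, z, w, ha1, hat, hz1, hzw, hww, hwx, hT⟩ :
      ∃ a z w, 1 ≤ a ∧ a ≤ t ∧ 1 ≤ z ∧ z < w0 ∧ w0 ≤ w ∧ w ≤ x ∧
        (b - a + 1) + (w - z + 1) + 2 * D = m := by
    by_cases h : m - 2 * D ≤ b + 2
    · exact ⟨b + 3 - (m - 2 * D), w0 - 1, w0, by omega, by omega, by omega, by omega, le_rfl,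
        hw0x, by omega⟩
    · by_cases h' : m - 2 * D - b ≤ w0
      · exact ⟨1, w0 - (m - 2 * D - b) + 1, w0, le_rfl, ht1, by omega, by omega, le_rfl, hw0x,
          by omega⟩
      · exact ⟨1, 1, m - 2 * D - b, le_rfl, ht1, le_rfl, by omega, by omega, by omega, by omega⟩
  have hgt : T.K (F.u b) < T.K (F.c z) := by
    refine lt_of_le_of_ne (cz z hz1 (by omega)) fun h => ?_
    exact Nat.find_min hex hzw
      ⟨hz1, T.inj _ _ (by rw [F.dc hz1 (by omega), F.hu b hb1 hbk.le]) h.symm⟩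
  have hwb : F.c w = F.u b :=
    T.inj _ _ (by rw [F.dc (by omega) (by omega), F.hu b hb1 hbk.le]) <| le_antisymm
      (hw0.2 ▸ F.cKle hw0.1 hww (by omega)) (cz w (by omega) hwx)
  have e : T.dl (F.u a) (F.c z) = D := by
    have zr : z ≤ r := by omega
    have := T.dl_left (F.hu a ha1 (by omega)) (F.dc hz1 zr) (F.hu k F.hk le_rfl)
      ((F.uKle ha1 (by omega) hbk.le).trans hgt.le) (F.c_le_top hz1 zr)
    have := T.dl_left (F.hu a ha1 (by omega)) (F.hu b hb1 hbk.le) (F.dc hz1 zr)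
      (F.uKle ha1 (by omega) hbk.le) hgt.le
    have := ht a b ha1 hat (by omega) hbk.le
    have := ht a k ha1 hat htk le_rfl
    omega
  have C := F.cyc_back ha1 (show a ≤ b by omega) hbk.le hz1 (show z ≤ w by omega) (by omega)
    (hwb ▸ F.cadj (l := w) (by omega) (by omega)).symm fun p p1 p2 he => by
      have := F.uKle (ha1.trans p1) p2 hbk.le
      rw [← he] at this
      omega
  rw [e] at C
  rwa [hT] at C

/-- The non-degenerate case. -/
theorem Cfg.core (hm : 2 * i + 3 ≤ m) (hsum : m ≤ k + r + 1)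
    (hU : 2 ≤ k → k + 2 * T.dl (F.u 1) (F.u k) + 1 ≤ m) (hnd : F.c r ≠ F.u k) :
    HasCyc G m := by
  classical
  have d := fun {a : ℕ} (h : 1 ≤ a) (h' : a ≤ k) => F.hu a h h'
  have cr : T.d (F.c r) = i := F.dc F.hr le_rfl
  have ltk : T.K (F.c r) < T.K (F.u k) :=
    lt_of_le_of_ne (F.c_le_top F.hr le_rfl) fun h =>
      hnd (T.inj _ _ (by rw [cr, d F.hk le_rfl]) h)
  by_cases hA : T.K (F.c r) < T.K (F.u 1)
  · have := T.one_le_dl (d le_rfl F.hk) cr fun h => by rw [h] at hA; omega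
    have := F.hk
    exact F.below hm le_rfl F.hk hA (by omega)
  have hk2 : 2 ≤ k := by
    by_contra h
    have := F.hk
    obtain rfl : k = 1 := by omega
    exact hA ltk
  specialize hU hk2
  by_cases hON : ∃ x b, 1 ≤ x ∧ x ≤ r ∧ 1 ≤ b ∧ b < k ∧ F.c x = F.u b ∧
      m + 1 ≤ k + x + 2 * T.dl (F.u 1) (F.u (b + 1))
  · obtain ⟨x, b, h1, h2, h3, h4, h5, h6⟩ := hON
    exact F.onpath hm hU h1 h2 h3 h4 h5 h6
  have roff : F.Off r := fun b h1 h2 he => by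
    rcases lt_or_eq_of_le h2 with h | h
    · have := T.one_le_dl (d le_rfl F.hk) (d (show 1 ≤ b + 1 by omega) h)
        (F.u_ne le_rfl (by omega) h)
      exact hON ⟨r, b, F.hr, le_rfl, h1, h, he, by omega⟩
    · exact hnd (h ▸ he)
  by_cases hA2 : T.K (F.c r) < T.K (F.u 2)
  · have := T.one_le_dl (d (show 1 ≤ 2 by omega) hk2) cr fun h => by rw [h] at hA2; omega
    exact F.below hm (show 1 ≤ 2 by omega) hk2 hA2 (by omega)
  have hex : ∃ x, 1 ≤ x ∧ x ≤ r ∧ ∀ z, x ≤ z → z ≤ r → F.Off z :=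
    ⟨r, F.hr, le_rfl, fun z h1 h2 => by rwa [show z = r by omega]⟩
  let xs := Nat.find hex
  have hxs : 1 ≤ xs ∧ xs ≤ r ∧ ∀ z, xs ≤ z → z ≤ r → F.Off z := Nat.find_spec hex
  have ge2 : ∀ x, 1 ≤ x → x ≤ r → T.K (F.u 2) ≤ T.K (F.c x) := fun x h1 h2 =>
    le_trans (not_lt.1 hA2) (F.cKle h1 h2 le_rfl)
  have topF : m ≤ k - 2 + 1 + r + 2 * T.dl (F.u 2) (F.c r) := by
    have := T.one_le_dl (d (show 1 ≤ 2 by omega) hk2) cr (roff 2 (by omega) hk2).symm
    omega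
  by_cases hlow : k - 2 + 1 + xs + 2 * T.dl (F.u 2) (F.c xs) ≤ m
  · have key : ∃ n, xs ≤ n ∧ n ≤ r ∧ k - 2 + 1 + n + 2 * T.dl (F.u 2) (F.c n) = m := by
      obtain ⟨n, h1, h2, h3⟩ := exists_eq_of_step
        (m := m) (f := fun s => k - 2 + 1 + (r - s) + 2 * T.dl (F.u 2) (F.c (r - s))) (Nat.zero_le (r - xs))
        (by simpa using topF) (by simpa [Nat.sub_sub_self hxs.2.1] using hlow) (fun n h1 h2 => by
          have := T.dl_left (d (show 1 ≤ 2 by omega) hk2) (F.dc (show 1 ≤ r - n by omega) (by omega))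
            (F.dc (show 1 ≤ r - (n + 1) by omega) (by omega)) (ge2 _ (by omega) (by omega))
            (F.cKle (by omega) (by omega) (by omega))
          omega)
      exact ⟨r - n, by omega, by omega, h3⟩
    obtain ⟨n, h1, h2, h3⟩ := key
    have C := F.cyc_off (show 1 ≤ 2 by omega) hk2 le_rfl le_rfl (show 1 ≤ n by omega) h2 F.link
      fun p p1 p2 => hxs.2.2 n h1 h2 p (by omega) p2
    convert C using 2
    omega
  have dle : T.dl (F.u 2) (F.c xs) ≤ T.dl (F.u 1) (F.c xs) :=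
    T.dl_right (d le_rfl F.hk) (d (show 1 ≤ 2 by omega) hk2) (F.dc hxs.1 hxs.2.1)
      (F.uKle le_rfl (by omega) hk2) (ge2 xs hxs.1 hxs.2.1)
  have dle1 : T.dl (F.u 1) (F.c xs) ≤ T.dl (F.u 1) (F.u k) :=
    T.dl_left (d le_rfl F.hk) (F.dc hxs.1 hxs.2.1) (d F.hk le_rfl)
      ((F.uKle le_rfl (by omega) hk2).trans (ge2 xs hxs.1 hxs.2.1)) (F.c_le_top hxs.1 hxs.2.1)
  by_cases hx1 : xs = 1
  · omega
  obtain ⟨x', hx'⟩ : ∃ x', xs = x' + 1 := ⟨xs - 1, by omega⟩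
  have hon : ¬F.Off x' := fun h => Nat.find_min hex (show x' < xs by omega)
    ⟨by omega, by omega, fun z h1 h2 => by
      rcases lt_or_eq_of_le h1 with h3 | h3
      · exact hxs.2.2 z (by omega) h2
      · exact h3 ▸ h⟩
  simp only [Cfg.Off, not_forall, ne_eq, not_not] at hon
  obtain ⟨b, hb1, hb2, hb⟩ := hon
  rcases lt_or_eq_of_le hb2 with hbk | rfl
  · have : T.dl (F.u 1) (F.c xs) ≤ T.dl (F.u 1) (F.u (b + 1)) :=
      T.dl_left (d le_rfl F.hk) (F.dc hxs.1 hxs.2.1) (d (show 1 ≤ b + 1 by omega) hbk)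
        ((F.uKle le_rfl (by omega) hk2).trans (ge2 xs hxs.1 hxs.2.1))
        (((F.cKle (show 1 ≤ x' by omega) (by omega) hxs.2.1).trans (hb ▸ le_rfl)).trans
          (F.uKle hb1 (by omega) hbk))
    exact absurd ⟨x', b, by omega, by omega, hb1, hbk, hb, by omega⟩ hON
  · -- the parents before `xs` are all the top vertex
    let q := m + 1 - b - 2 * T.dl (F.u 2) (F.c xs)
    let z := xs + 1 - q
    have hadj : G.Adj (F.u b) (F.y z) := by
      have hzb : F.c z = F.u b :=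
        T.inj _ _ (by rw [F.dc (by omega) (by omega), d F.hk le_rfl]) <| le_antisymm
          (F.c_le_top (by omega) (by omega))
          (hb ▸ F.cKle (show 1 ≤ z by omega) (show z ≤ x' by omega) (by omega))
      exact hzb ▸ (F.cadj (l := z) (by omega) (by omega)).symm
    have C := F.cyc_off (show 1 ≤ 2 by omega) hk2 le_rfl (show 1 ≤ z by omega) (show z ≤ xs by omega)
      hxs.2.1 hadj fun p p1 p2 => hxs.2.2 xs le_rfl hxs.2.1 p (by omega) p2
    convert C using 2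
    omega

end Vale.Agent.P048
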