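import Mathlib

/-! # Paths and cycles of prescribed order -/

namespace Vale.Agent.P048

open Finset

variable {V : Type*}

/-- `G` has a cycle on exactly `m` vertices. -/
def HasCyc (G : SimpleGraph V) (m : ℕ) : Prop :=
  ∃ (u : V) (w : G.Walk u u), w.IsCycle ∧ w.length = m

/-- A path from `a` to `b` on `n` vertices, all lying in `S`. -/
def Pth (G : SimpleGraph V) (a b : V) (n : ℕ) (S : Set V) : Prop :=
  ∃ w : G.Walk a b, w.IsPath ∧ w.length + 1 = n ∧ ∀ x ∈ w.support, x ∈ S

variable {G : SimpleGraph V}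

theorem Pth.single (a : V) : Pth G a a 1 {a} :=
  ⟨.nil, .nil, rfl, by simp⟩

theorem Pth.mono {a b : V} {n : ℕ} {S T : Set V} (h : Pth G a b n S) (hST : S ⊆ T) :
    Pth G a b n T := by
  obtain ⟨w, h1, h2, h3⟩ := h
  exact ⟨w, h1, h2, fun x hx => hST (h3 x hx)⟩

theorem Pth.pos {a b : V} {n : ℕ} {S : Set V} (h : Pth G a b n S) : 1 ≤ n := by
  obtain ⟨w, -, h2, -⟩ := h
  omega

theorem Pth.symm {a b : V} {n : ℕ} {S : Set V} (h : Pth G a b n S) : Pth G b a n S := by
  obtain ⟨w, h1, h2, h3⟩ := h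
  exact ⟨w.reverse, h1.reverse, by simpa using h2, fun x hx => h3 x (by simpa using hx)⟩

theorem Pth.append {a b c e : V} {n n' : ℕ} {S T : Set V} (h : Pth G a b n S) (hbc : G.Adj b c)
    (h' : Pth G c e n' T) (hd : Disjoint S T) : Pth G a e (n + n') (S ∪ T) := by
  obtain ⟨w, h1, h2, h3⟩ := h
  obtain ⟨w', h1', h2', h3'⟩ := h'
  refine ⟨w.append (.cons hbc w'), ?_, ?_, ?_⟩
  · rw [SimpleGraph.Walk.isPath_def, SimpleGraph.Walk.support_append,
      SimpleGraph.Walk.support_cons, List.tail_cons, List.nodup_append]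
    exact ⟨h1.support_nodup, h1'.support_nodup, fun x hx y hy hxy =>
      Set.disjoint_left.1 hd (h3 x hx) (hxy ▸ h3' y hy)⟩
  · simp only [SimpleGraph.Walk.length_append, SimpleGraph.Walk.length_cons]
    omega
  · intro x hx
    rw [SimpleGraph.Walk.support_append, SimpleGraph.Walk.support_cons, List.tail_cons,
      List.mem_append] at hx
    exact hx.imp (h3 x) (h3' x)

theorem Pth.snoc {a b c : V} {n : ℕ} {S : Set V} (h : Pth G a b n S) (hbc : G.Adj b c)
    (hc : c ∉ S) : Pth G a c (n + 1) (S ∪ {c}) :=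
  h.append hbc (Pth.single c) (Set.disjoint_singleton_right.2 hc)

theorem Pth.cycle {a b : V} {n : ℕ} {S : Set V} (h : Pth G a b n S) (hba : G.Adj b a)
    (hn : 3 ≤ n) : HasCyc G n := by
  obtain ⟨w, h1, h2, -⟩ := h
  refine ⟨b, .cons hba w, SimpleGraph.Walk.cons_isCycle_iff _ _ |>.2 ⟨h1, ?_⟩, by simpa using h2⟩
  intro he
  cases w with
  | nil => simp at he
  | cons hadj p =>
    rename_i c
    rw [SimpleGraph.Walk.cons_isPath_iff] at h1
    rw [SimpleGraph.Walk.edges_cons, List.mem_cons] at he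
    rcases he with he | he
    · rw [Sym2.eq_iff] at he
      rcases he with ⟨h, -⟩ | ⟨h, -⟩
      · exact hba.ne h
      · subst h
        cases p with
        | nil => simp at h2; omega
        | cons h' q =>
          exact ((SimpleGraph.Walk.cons_isPath_iff _ _).1 h1.1).2 q.end_mem_support
    · exact h1.2 (p.snd_mem_support_of_mem_edges he)

/-- The segment of a sequence of pairwise distinct consecutively adjacent vertices. -/
theorem Pth.seg (f : ℕ → V) {a b : ℕ} (hab : a ≤ b)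
    (inj : ∀ p q, a ≤ p → p < q → q ≤ b → f p ≠ f q)
    (adj : ∀ p, a ≤ p → p < b → G.Adj (f p) (f (p + 1))) :
    Pth G (f a) (f b) (b - a + 1) (f '' Set.Icc a b) := by
  induction b, hab using Nat.le_induction with
  | base => simpa using Pth.single (G := G) (f a)
  | succ b hb ih =>
    have h := (ih (fun p q h1 h2 h3 => inj p q h1 h2 (h3.trans (Nat.le_succ b)))
      (fun p h1 h2 => adj p h1 (Nat.lt_succ_of_lt h2))).snoc (adj b hb (Nat.lt_succ_self b))
      (by rintro ⟨p, ⟨h1, h2⟩, h3⟩; exact inj p (b + 1) h1 (by omega) le_rfl h3)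
    have e : b - a + 1 + 1 = b + 1 - a + 1 := by omega
    rw [e] at h
    refine h.mono (Set.union_subset (Set.image_mono (Set.Icc_subset_Icc_right (Nat.le_succ b))) ?_)
    exact Set.singleton_subset_iff.2 ⟨b + 1, ⟨by omega, le_rfl⟩, rfl⟩

/-- Discrete intermediate value with decrements of at most one. -/
theorem exists_eq_of_step {f : ℕ → ℕ} {a b m : ℕ} (hab : a ≤ b) (ha : m ≤ f a) (hb : f b ≤ m)
    (st : ∀ n, a ≤ n → n < b → f n ≤ f (n + 1) + 1) : ∃ n, a ≤ n ∧ n ≤ b ∧ f n = m := by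
  induction b, hab using Nat.le_induction with
  | base => exact ⟨a, le_rfl, le_rfl, by omega⟩
  | succ b hb' ih =>
    by_cases h : f b ≤ m
    · obtain ⟨n, h1, h2, h3⟩ := ih h (fun n h1 h2 => st n h1 (Nat.lt_succ_of_lt h2))
      exact ⟨n, h1, h2.trans (Nat.le_succ b), h3⟩
    · have := st b hb' (Nat.lt_succ_self b)
      exact ⟨b + 1, by omega, le_rfl, by omega⟩

/-- Intervals of length `r` whose left ends drop by at most `r` leave no gap. -/
theorem exists_near_of_step {f : ℕ → ℕ} {a b m r : ℕ} (hab : a ≤ b) (ha : m < f a + r)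
    (hb : f b ≤ m) (st : ∀ n, a ≤ n → n < b → f n ≤ f (n + 1) + r) :
    ∃ n, a ≤ n ∧ n ≤ b ∧ f n ≤ m ∧ m < f n + r := by
  induction b, hab using Nat.le_induction with
  | base => exact ⟨a, le_rfl, le_rfl, hb, ha⟩
  | succ b hb' ih =>
    by_cases h : f b ≤ m
    · obtain ⟨n, h1, h2, h3, h4⟩ := ih h (fun n h1 h2 => st n h1 (Nat.lt_succ_of_lt h2))
      exact ⟨n, h1, h2.trans (Nat.le_succ b), h3, h4⟩
    · have := st b hb' (Nat.lt_succ_self b)
      exact ⟨b + 1, by omega, le_rfl, hb, by omega⟩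

end Vale.Agent.P048
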